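import Crest.Agent.N325.Ip.Bar
import Crest.Agent.N325.P2.Util

-- ▼ part N325/Du/Arc
section

/-!
# Row 325, P2 (helper61): what the approximate duals say about one arc
-/

set_option autoImplicit false
open Finset

namespace Crest.Agent.N325.Du

open Crest.Agent.N325.Ip Crest.Agent.N325.Ipm

variable {P : Pm} {A : Arc} {x : ℤ} {d : ℝ}

/-- the dual inequality of one arc, `d = y head - y tail` -/
def Q1 (P : Pm) (A : Arc) (x : ℤ) (d : ℝ) : Prop := |gr P A x - d| ≤ ln P A x / 10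

/-- the duals of a quiet network -/
def Dual (P : Pm) (N : Net) (y : ℕ → ℝ) : Prop :=
  y 0 = 0 ∧ ∀ e ∈ N.E, Q1 P (N.arc e) (N.X e) (y (N.arc e).b - y (N.arc e).a)

theorem Quiet.dual {N : Net} (h : Quiet P N) : ∃ y, Dual P N y := by
  obtain ⟨y, h⟩ := h
  refine ⟨fun v => y v - y 0, sub_self _, fun e he => ?_⟩
  have := h e he
  unfold Q1
  convert this using 3
  ring

theorem Q1.up (h : Q1 P A x d) : d ≤ A.p - 9 / 10 * (A.c1 * wt (σ0 P) (s1 P A x) +
    A.c2 * wt (σ0 P) (s2 P A x)) + 11 / 10 * (A.c3 * wt (σ0 P) (s3 P A x)) := by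
  have := (abs_le.1 h).1
  unfold gr ln at this
  linarith

theorem Q1.lo (h : Q1 P A x d) : A.p - 11 / 10 * (A.c1 * wt (σ0 P) (s1 P A x) +
    A.c2 * wt (σ0 P) (s2 P A x)) + 9 / 10 * (A.c3 * wt (σ0 P) (s3 P A x)) ≤ d := by
  have := (abs_le.1 h).2
  unfold gr ln at this
  linarith

/-- above the truncation point the weight is at most `1/t` -/
theorem wt_le {σ s t : ℝ} (hσ : 0 ≤ σ) (ht : 0 < t) (h1 : σ ≤ t) (h2 : t ≤ s) : wt σ s ≤ 1 / t :=
  (wt_anti hσ ht h2).trans_eq (wt_of_le h1)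

/-- a bounded weight bounds the slack from below -/
theorem le_of_wt {σ s W : ℝ} (hs : 0 < s) (h : wt σ s ≤ W) : 1 / W ≤ s := by
  have a := one_div_le_wt (s0 := σ) hs
  have b := wt_pos (s0 := σ) hs
  rw [div_le_iff₀ (b.trans_le h)]
  have := (div_le_iff₀ hs).1 (a.trans h)
  linarith

theorem wt_nonneg {σ s : ℝ} (hs : 0 < s) : 0 ≤ wt σ s := (wt_pos hs).le

/-- units: `k ≤ x` in units gives the real inequality -/
theorem le_div_D {k : ℝ} {z : ℤ} (hD : 1 ≤ P.D) (h : k * P.D ≤ z) : k ≤ (z : ℝ) / P.D := by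
  have : (0 : ℝ) < P.D := by exact_mod_cast hD
  rwa [le_div_iff₀ this]

theorem mul_le_of_le_div {k : ℝ} {z : ℝ} (hD : 1 ≤ P.D) (h : k ≤ z / P.D) : k * P.D ≤ z := by
  have : (0 : ℝ) < P.D := by exact_mod_cast hD
  rwa [le_div_iff₀ this] at h

/-- **floor**: bounded duals keep both slacks away from zero (domain of width `≥ 2`) -/
theorem Q1.floor {B : Bn} {e : ℕ} {Y : ℝ} (h : Q1 P A x d) (hD : 1 ≤ P.D) (hσ : P.s0 ≤ P.D)
    (hA : B.arc e A) (h1 : 0 < x + A.o1) (h3 : 0 < A.o3 - x) (hw : 2 * P.D ≤ A.o1 + A.o3)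
    (hd : |d| ≤ Y) :
    1 / (2 * (Y + A.p + A.c1 + A.c2 + A.c3)) ≤ s1 P A x ∧
      1 / (2 * (Y + A.p + A.c1 + A.c2 + A.c3)) ≤ s3 P A x := by
  obtain ⟨k1, k2, k3⟩ := slacks hD hA h1 h3
  have hD' : (0 : ℝ) < P.D := by exact_mod_cast hD
  have σ1 : σ0 P ≤ 1 := (div_le_one hD').2 (by exact_mod_cast hσ)
  have w1 := wt_pos (s0 := σ0 P) k1.1
  have w2 := wt_pos (s0 := σ0 P) k2.1
  have w3 := wt_pos (s0 := σ0 P) k3.1
  have c1 : (1 : ℝ) ≤ A.c1 := by exact_mod_cast hA.2.2.2.2.1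
  have c3 : (1 : ℝ) ≤ A.c3 := by exact_mod_cast hA.2.2.2.2.2.1
  have c2 : (0 : ℝ) ≤ A.c2 := Nat.cast_nonneg _
  have p0 : (0 : ℝ) ≤ A.p := Nat.cast_nonneg _
  have o12 : (A.o1 : ℝ) ≤ A.o2 := by exact_mod_cast hA.2.2.2.2.2.2.2.1
  have a21 : s1 P A x ≤ s2 P A x := div_le_div_of_nonneg_right (by linarith) hD'.le
  have sum : 2 ≤ s1 P A x + s3 P A x := by
    have : (2 : ℝ) * P.D ≤ A.o1 + A.o3 := by exact_mod_cast hw
    unfold s1 s3
    rw [← add_div, le_div_iff₀ hD']; linarith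
  have d1 := (abs_le.1 hd).1
  have d2 := (abs_le.1 hd).2
  have Y0 : 0 ≤ Y := (abs_nonneg d).trans hd
  have one : 1 / (2 * (Y + A.p + A.c1 + A.c2 + A.c3)) ≤ 1 := by
    rw [div_le_one (by positivity)]; linarith
  rcases le_total 1 (s1 P A x) with k | k
  · refine ⟨one.trans k, le_of_wt (σ := σ0 P) k3.1 ?_⟩
    have u1 : wt (σ0 P) (s1 P A x) ≤ 1 / 1 := wt_le (σ0_nonneg P) one_pos σ1 k
    have u2 : wt (σ0 P) (s2 P A x) ≤ 1 / 1 := wt_le (σ0_nonneg P) one_pos σ1 (k.trans a21)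
    have := h.lo
    nlinarith [mul_le_mul_of_nonneg_left u1 (by linarith : (0 : ℝ) ≤ A.c1),
      mul_le_mul_of_nonneg_left u2 c2, mul_le_mul_of_nonneg_right c3 w3.le]
  · refine ⟨le_of_wt (σ := σ0 P) k1.1 ?_, one.trans (by linarith)⟩
    have u3 : wt (σ0 P) (s3 P A x) ≤ 1 / 1 := wt_le (σ0_nonneg P) one_pos σ1 (by linarith)
    have := h.up
    nlinarith [mul_le_mul_of_nonneg_left u3 (by linarith : (0 : ℝ) ≤ A.c3),
      mul_nonneg c2 w2.le, mul_le_mul_of_nonneg_right c1 w1.le]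

end Crest.Agent.N325.Du
end

-- ▼ part N325/Du/Shp
section

/-!
# Row 325, P2 (helper61): the shape of the network of part II, flow bounds, kinds of arcs

`H` = heads (inner and pending vertices), `C` = classes, `0` = ground.  `π` = price of a ghost,
`b`, `M` = capacities in units (`b = B D`), `W` bounds the weights of the sinks.
-/

set_option autoImplicit false
open Finset

namespace Crest.Agent.N325.Du

open Crest.Agent.N325.Ip Crest.Agent.N325.Ipm

/-- numbers and node sets of the shape -/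
structure Sh where
  H : Finset ℕ
  C : Finset ℕ
  π : ℕ
  Z : ℕ
  b : ℕ
  M : ℕ
  W : ℕ
  k : ℕ

variable (S : Sh) (P : Pm)

/-- ghost -/
def Sh.G (A : Arc) : Prop :=
  A.a = 0 ∧ A.b ∈ S.H ∧ A.p = S.π ∧ A.c1 = 1 ∧ A.c2 = 0 ∧ A.o3 = S.M
/-- pending sink -/
def Sh.U (A : Arc) : Prop :=
  A.a ∈ S.H ∧ A.b = 0 ∧ A.p = 0 ∧ A.c1 = 1 ∧ A.c2 = 2 * S.Z ∧ A.o2 = P.D ∧ A.o3 = 2 * P.D
/-- node arc or root arc -/
def Sh.N (A : Arc) : Prop :=
  (A.a ∈ S.H ∨ A.a = 0) ∧ A.b ∈ S.C ∧ A.p = 0 ∧ A.c1 = 1 ∧ A.c2 = 0 ∧ A.o3 = S.b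
/-- sink of a class -/
def Sh.K (A : Arc) : Prop :=
  A.a ∈ S.C ∧ A.b = 0 ∧ A.p = 0 ∧ A.c1 ≤ S.W ∧ A.c2 = 0 ∧ A.o3 = S.M
/-- plain arc -/
def Sh.A (A : Arc) : Prop :=
  A.a ∈ S.C ∧ A.b ∈ S.H ∧ A.p = 0 ∧ A.c1 = 1 ∧ A.c2 = 0 ∧ A.o3 = S.M

/-- arcs into `v` -/
def inn (N : Net) (v : ℕ) : Finset ℕ := N.E.filter fun e => (N.arc e).b = v
/-- arcs out of `v` -/
def out (N : Net) (v : ℕ) : Finset ℕ := N.E.filter fun e => (N.arc e).a = v

/-- the shape -/
structure Shp (B : Bn) (N : Net) : Prop where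
  D : 1 ≤ P.D
  h0 : 0 ∉ S.H
  c0 : 0 ∉ S.C
  dj : Disjoint S.H S.C
  b2 : 64 * P.D ≤ S.b
  M2 : 8 * S.b ≤ S.M
  σ : 8 * (S.k + 1) * P.s0 ≤ P.D
  arc : ∀ e ∈ N.E, B.arc e (N.arc e) ∧ (N.arc e).o1 = 0 ∧ (N.arc e).c3 = 1 ∧ 0 < N.X e ∧
    N.X e < (N.arc e).o3
  kind : ∀ e ∈ N.E, S.G (N.arc e) ∨ S.U P (N.arc e) ∨ S.N (N.arc e) ∨ S.K (N.arc e) ∨
    S.A (N.arc e)
  cons : ∀ v, v ≠ 0 → ∑ e ∈ inn N v, N.X e = ∑ e ∈ out N v, N.X e
  gh : ∀ h ∈ S.H, ∃ e ∈ N.E, S.G (N.arc e) ∧ (N.arc e).b = h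
  sk : ∀ c ∈ S.C, ∃ e ∈ N.E, S.K (N.arc e) ∧ (N.arc e).a = c
  hout : ∀ h ∈ S.H, (out N h).card ≤ 1
  hin : ∀ h ∈ S.H, (inn N h).card ≤ 4
  cin : ∀ c ∈ S.C, (inn N c).card ≤ 1
  cout : ∀ c ∈ S.C, (out N c).card ≤ S.k

variable {S P} {B : Bn} {N : Net} {e v : ℕ}

theorem mem_inn : e ∈ inn N v ↔ e ∈ N.E ∧ (N.arc e).b = v := mem_filter
theorem mem_out : e ∈ out N v ↔ e ∈ N.E ∧ (N.arc e).a = v := mem_filter

theorem sum_eq_of_card_le_one {s : Finset ℕ} (h : s.card ≤ 1) (he : e ∈ s) (f : ℕ → ℤ) :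
    ∑ i ∈ s, f i = f e := by
  rw [eq_singleton_iff_unique_mem.2 ⟨he, fun x hx => card_le_one.1 h x hx e he⟩, sum_singleton]

theorem exists_big {s : Finset ℕ} {k : ℕ} {f : ℕ → ℤ} (h : s.card ≤ k) (hs : 0 < ∑ i ∈ s, f i) :
    ∃ e ∈ s, ∑ i ∈ s, f i ≤ k * f e := by
  obtain ⟨e, he, mx⟩ := exists_max_image s f (nonempty_of_sum_ne_zero hs.ne')
  have a : ∑ i ∈ s, f i ≤ s.card • f e := sum_le_card_nsmul s f _ mx
  rw [nsmul_eq_mul] at a
  have p : 0 < f e := by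
    by_contra c
    have : (s.card : ℤ) * f e ≤ 0 := mul_nonpos_of_nonneg_of_nonpos (Nat.cast_nonneg _) (not_lt.1 c)
    omega
  exact ⟨e, he, a.trans (mul_le_mul_of_nonneg_right (by exact_mod_cast h) p.le)⟩

namespace Shp

theorem pos (h : Shp S P B N) (he : e ∈ N.E) : 0 < N.X e := (h.arc e he).2.2.2.1

theorem le_in (h : Shp S P B N) (he : e ∈ N.E) : N.X e ≤ ∑ i ∈ inn N (N.arc e).b, N.X i :=
  single_le_sum (fun _ k => (h.pos (mem_inn.1 k).1).le) (mem_inn.2 ⟨he, rfl⟩)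

theorem le_out (h : Shp S P B N) (he : e ∈ N.E) : N.X e ≤ ∑ i ∈ out N (N.arc e).a, N.X i :=
  single_le_sum (fun _ k => (h.pos (mem_out.1 k).1).le) (mem_out.2 ⟨he, rfl⟩)

theorem neH (h : Shp S P B N) (k : v ∈ S.H) : v ≠ 0 := fun e => h.h0 (e ▸ k)
theorem neC (h : Shp S P B N) (k : v ∈ S.C) : v ≠ 0 := fun e => h.c0 (e ▸ k)
theorem notC (h : Shp S P B N) (k : v ∈ S.H) : v ∉ S.C := disjoint_left.1 h.dj k
theorem notH (h : Shp S P B N) (k : v ∈ S.C) : v ∉ S.H := disjoint_right.1 h.dj k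

/-- an arc into a class is a node arc -/
theorem kind_inC (h : Shp S P B N) (he : e ∈ N.E) (k : (N.arc e).b ∈ S.C) : S.N (N.arc e) := by
  rcases h.kind e he with a | a | a | a | a
  exacts [absurd k (h.notC a.2.1), absurd a.2.1 (h.neC k), a, absurd a.2.1 (h.neC k),
    absurd k (h.notC a.2.1)]

/-- an arc out of a head is a pending sink or a node arc -/
theorem kind_outH (h : Shp S P B N) (he : e ∈ N.E) (k : (N.arc e).a ∈ S.H) :
    S.U P (N.arc e) ∨ S.N (N.arc e) := by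
  rcases h.kind e he with a | a | a | a | a
  exacts [absurd a.1 (h.neH k), .inl a, .inr a, absurd a.1 (h.notC k), absurd a.1 (h.notC k)]

/-- an arc into a head is a ghost or a plain arc -/
theorem kind_inH (h : Shp S P B N) (he : e ∈ N.E) (k : (N.arc e).b ∈ S.H) :
    S.G (N.arc e) ∨ S.A (N.arc e) := by
  rcases h.kind e he with a | a | a | a | a
  exacts [.inl a, absurd a.2.1 (h.neH k), absurd a.2.1 (h.notC k), absurd a.2.1 (h.neH k), .inr a]

/-- an arc out of a class is its sink or a plain arc -/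
theorem kind_outC (h : Shp S P B N) (he : e ∈ N.E) (k : (N.arc e).a ∈ S.C) :
    S.K (N.arc e) ∨ S.A (N.arc e) := by
  rcases h.kind e he with a | a | a | a | a
  exacts [absurd a.1 (h.neC k), absurd k (h.notC a.1),
    a.1.elim (fun a => absurd k (h.notC a)) fun a => absurd a (h.neC k), .inl a, .inr a]

/-- the arc into a class carries its throughput -/
theorem exists_inC (h : Shp S P B N) (hc : v ∈ S.C) : ∃ e ∈ N.E, S.N (N.arc e) ∧
    (N.arc e).b = v ∧ ∑ i ∈ out N v, N.X i = N.X e := by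
  obtain ⟨e, he, -, rfl⟩ := h.sk v hc
  have a := (h.pos he).trans_le (h.le_out he)
  rw [← h.cons _ (h.neC hc)] at a ⊢
  obtain ⟨i, hi⟩ := nonempty_of_sum_ne_zero a.ne'
  obtain ⟨i1, i2⟩ := mem_inn.1 hi
  exact ⟨i, i1, h.kind_inC i1 (i2 ▸ hc), i2, sum_eq_of_card_le_one (h.cin _ hc) hi _⟩

/-- the arc out of a head carries its throughput -/
theorem exists_outH (h : Shp S P B N) (hv : v ∈ S.H) : ∃ e ∈ N.E, (S.U P (N.arc e) ∨
    S.N (N.arc e)) ∧ (N.arc e).a = v ∧ ∑ i ∈ inn N v, N.X i = N.X e := by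
  obtain ⟨e, he, -, rfl⟩ := h.gh v hv
  have a := (h.pos he).trans_le (h.le_in he)
  rw [h.cons _ (h.neH hv)] at a ⊢
  obtain ⟨i, hi⟩ := nonempty_of_sum_ne_zero a.ne'
  obtain ⟨i1, i2⟩ := mem_out.1 hi
  exact ⟨i, i1, h.kind_outH i1 (i2 ▸ hv), i2, sum_eq_of_card_le_one (h.hout _ hv) hi _⟩

theorem in_le_out (h : Shp S P B N) (he : e ∈ N.E) {i : ℕ} (hi : i ∈ N.E) (k : (N.arc e).b ∈ S.H)
    (q : (N.arc i).a = (N.arc e).b) : N.X e ≤ N.X i := by
  have a := h.le_in he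
  rwa [h.cons _ (h.neH k), sum_eq_of_card_le_one (h.hout _ k) (mem_out.2 ⟨hi, q⟩)] at a

theorem out_le_in (h : Shp S P B N) (he : e ∈ N.E) {i : ℕ} (hi : i ∈ N.E) (k : (N.arc e).a ∈ S.C)
    (q : (N.arc i).b = (N.arc e).a) : N.X e ≤ N.X i := by
  have a := h.le_out he
  rwa [← h.cons _ (h.neC k), sum_eq_of_card_le_one (h.cin _ k) (mem_inn.2 ⟨hi, q⟩)] at a

theorem lt_b_UN (h : Shp S P B N) (he : e ∈ N.E) (k : S.U P (N.arc e) ∨ S.N (N.arc e)) :
    N.X e < S.b := by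
  have a := (h.arc e he).2.2.2.2
  have := h.b2
  rcases k with k | k
  · rw [k.2.2.2.2.2.2] at a; omega
  · rwa [k.2.2.2.2.2] at a

/-- every flow is below the node capacity -/
theorem lt_b (h : Shp S P B N) (he : e ∈ N.E) : N.X e < S.b := by
  have inH : (N.arc e).b ∈ S.H → N.X e < S.b := fun k => by
    obtain ⟨i, hi, q, r, -⟩ := h.exists_outH k
    exact (h.in_le_out he hi k r).trans_lt (h.lt_b_UN hi q)
  rcases h.kind e he with a | a | a | a | a
  · exact inH a.2.1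
  · exact h.lt_b_UN he (.inl a)
  · exact h.lt_b_UN he (.inr a)
  · obtain ⟨i, hi, q, r, -⟩ := h.exists_inC a.1
    exact (h.out_le_in he hi a.1 r).trans_lt (h.lt_b_UN hi (.inr q))
  · exact inH a.2.1

/-- conservation on a set of nodes -/
theorem cons_set (h : Shp S P B N) {T : Finset ℕ} (h0 : 0 ∉ T) :
    ∑ e ∈ N.E with (N.arc e).b ∈ T, N.X e = ∑ e ∈ N.E with (N.arc e).a ∈ T, N.X e := by
  rw [← sum_fiberwise_of_maps_to (s := N.E.filter fun e => (N.arc e).b ∈ T) (t := T)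
      (g := fun e => (N.arc e).b) fun e k => (mem_filter.1 k).2,
    ← sum_fiberwise_of_maps_to (s := N.E.filter fun e => (N.arc e).a ∈ T) (t := T)
      (g := fun e => (N.arc e).a) fun e k => (mem_filter.1 k).2]
  refine sum_congr rfl fun v hv => ?_
  have := h.cons v fun k => h0 (k ▸ hv)
  unfold inn out at this
  rw [filter_filter, filter_filter]
  convert this using 2 <;> ext e <;> simp only [mem_filter] <;>
    exact ⟨fun k => ⟨k.1, k.2.2⟩, fun k => ⟨k.1, k.2 ▸ hv, k.2⟩⟩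

end Shp

end Crest.Agent.N325.Du
end

-- ▼ part N325/Du/Floor
section

/-!
# Row 325, P2 (helper61): ranges of the duals and the floor of all flows and slacks
-/

set_option autoImplicit false
open Finset

namespace Crest.Agent.N325.Du

open Crest.Agent.N325.Ip Crest.Agent.N325.Ipm

/-- the real flow -/
noncomputable def fl (P : Pm) (N : Net) (e : ℕ) : ℝ := (N.X e : ℝ) / P.D
/-- the weight -/
noncomputable def wg (P : Pm) (t : ℝ) : ℝ := wt (σ0 P) t

variable {S : Sh} {P : Pm} {B : Bn} {N : Net} {e v : ℕ} {y : ℕ → ℝ}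

namespace Shp

theorem Dpos (h : Shp S P B N) : (0 : ℝ) < P.D := by exact_mod_cast h.D

theorem σk (h : Shp S P B N) : σ0 P ≤ 1 / (8 * ((S.k : ℝ) + 1)) := by
  have : (8 : ℝ) * (S.k + 1) * P.s0 ≤ P.D := by exact_mod_cast h.σ
  rw [σ0, div_le_div_iff₀ h.Dpos (by positivity)]; linarith

theorem σ8 (h : Shp S P B N) : σ0 P ≤ 1 / 8 :=
  h.σk.trans (one_div_le_one_div_of_le (by norm_num) (by
    have : (0 : ℝ) ≤ S.k := Nat.cast_nonneg _
    linarith))

theorem wg_le (h : Shp S P B N) {s t : ℝ} (h1 : 1 / 8 ≤ t) (h2 : t ≤ s) : wg P s ≤ 1 / t :=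
  wt_le (σ0_nonneg P) (by linarith) (h.σ8.trans h1) h2

theorem fl_pos (h : Shp S P B N) (he : e ∈ N.E) : 0 < fl P N e :=
  div_pos (by exact_mod_cast h.pos he) h.Dpos

theorem wg_pos (h : Shp S P B N) (he : e ∈ N.E) : 0 < wg P (fl P N e) := wt_pos (h.fl_pos he)

theorem fl_le (h : Shp S P B N) {i : ℕ} (k : N.X e ≤ N.X i) : fl P N e ≤ fl P N i :=
  div_le_div_of_nonneg_right (by exact_mod_cast k) h.Dpos.le

theorem wg_anti (h : Shp S P B N) (he : e ∈ N.E) {i : ℕ} (k : N.X e ≤ N.X i) :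
    wg P (fl P N i) ≤ wg P (fl P N e) := wt_anti (σ0_nonneg P) (h.fl_pos he) (h.fl_le k)

theorem s1_eq (h : Shp S P B N) (he : e ∈ N.E) : s1 P (N.arc e) (N.X e) = fl P N e := by
  simp [s1, fl, (h.arc e he).2.1]

theorem s3_eq (e : ℕ) : s3 P (N.arc e) (N.X e) = ((N.arc e).o3 : ℝ) / P.D - fl P N e := by
  rw [s3, fl, sub_div]

theorem b64 (h : Shp S P B N) : (64 : ℝ) ≤ (S.b : ℝ) / P.D := by
  rw [le_div_iff₀ h.Dpos]; exact_mod_cast h.b2

theorem fl_lt_b (h : Shp S P B N) (he : e ∈ N.E) : fl P N e < (S.b : ℝ) / P.D :=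
  div_lt_div_of_pos_right (by exact_mod_cast h.lt_b he) h.Dpos

theorem far (h : Shp S P B N) (he : e ∈ N.E) (k : (N.arc e).o3 = S.M) :
    0 < wt (σ0 P) (s3 P (N.arc e) (N.X e)) ∧ wt (σ0 P) (s3 P (N.arc e) (N.X e)) ≤ 1 / 448 := by
  have a := h.fl_lt_b he
  have b := h.b64
  have c : 8 * ((S.b : ℝ) / P.D) ≤ (S.M : ℝ) / P.D := by
    rw [← mul_div_assoc]
    exact div_le_div_of_nonneg_right (by exact_mod_cast h.M2) h.Dpos.le
  have d : 448 ≤ s3 P (N.arc e) (N.X e) := by rw [s3_eq, k]; linarith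
  exact ⟨wt_pos (by linarith), h.wg_le (by norm_num) d⟩

theorem relG (h : Shp S P B N) (hy : Dual P N y) (he : e ∈ N.E) (k : S.G (N.arc e)) :
    y (N.arc e).b ≤ S.π - 9 / 10 * wg P (fl P N e) + 1 / 400 ∧
      S.π - 11 / 10 * wg P (fl P N e) ≤ y (N.arc e).b := by
  have u := (hy.2 e he).up
  have l := (hy.2 e he).lo
  obtain ⟨f0, f1⟩ := h.far he k.2.2.2.2.2
  rw [k.1, k.2.2.1, k.2.2.2.1, k.2.2.2.2.1, (h.arc e he).2.2.1, h.s1_eq he, hy.1] at u l
  unfold wg; push_cast at u l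
  constructor <;> linarith

theorem relA (h : Shp S P B N) (hy : Dual P N y) (he : e ∈ N.E) (k : S.A (N.arc e)) :
    y (N.arc e).b ≤ y (N.arc e).a - 9 / 10 * wg P (fl P N e) + 1 / 400 ∧
      y (N.arc e).a - 11 / 10 * wg P (fl P N e) ≤ y (N.arc e).b := by
  have u := (hy.2 e he).up
  have l := (hy.2 e he).lo
  obtain ⟨f0, f1⟩ := h.far he k.2.2.2.2.2
  rw [k.2.2.1, k.2.2.2.1, k.2.2.2.2.1, (h.arc e he).2.2.1, h.s1_eq he] at u l
  unfold wg; push_cast at u l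
  constructor <;> linarith

theorem relK (h : Shp S P B N) (hy : Dual P N y) (he : e ∈ N.E) (k : S.K (N.arc e)) :
    9 / 10 * ((N.arc e).c1 * wg P (fl P N e)) - 1 / 400 ≤ y (N.arc e).a ∧
      y (N.arc e).a ≤ 11 / 10 * ((N.arc e).c1 * wg P (fl P N e)) := by
  have u := (hy.2 e he).up
  have l := (hy.2 e he).lo
  obtain ⟨f0, f1⟩ := h.far he k.2.2.2.2.2
  rw [k.2.1, k.2.2.1, k.2.2.2.2.1, (h.arc e he).2.2.1, h.s1_eq he, hy.1] at u l
  unfold wg; push_cast at u l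
  constructor <;> linarith

theorem relN (h : Shp S P B N) (hy : Dual P N y) (he : e ∈ N.E) (k : S.N (N.arc e)) :
    y (N.arc e).b ≤ y (N.arc e).a - 9 / 10 * wg P (fl P N e) +
        11 / 10 * wg P ((S.b : ℝ) / P.D - fl P N e) ∧
      y (N.arc e).a - 11 / 10 * wg P (fl P N e) + 9 / 10 * wg P ((S.b : ℝ) / P.D - fl P N e) ≤
        y (N.arc e).b := by
  have u := (hy.2 e he).up
  have l := (hy.2 e he).lo
  rw [k.2.2.1, k.2.2.2.1, k.2.2.2.2.1, (h.arc e he).2.2.1, h.s1_eq he, s3_eq,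
    k.2.2.2.2.2] at u l
  unfold wg; push_cast at u l
  constructor <;> linarith

theorem relU (h : Shp S P B N) (hy : Dual P N y) (he : e ∈ N.E) (k : S.U P (N.arc e)) :
    9 / 10 * (wg P (fl P N e) + 2 * S.Z * wg P (fl P N e + 1)) - 11 / 10 * wg P (2 - fl P N e) ≤
        y (N.arc e).a ∧
      y (N.arc e).a ≤ 11 / 10 * (wg P (fl P N e) + 2 * S.Z * wg P (fl P N e + 1)) -
        9 / 10 * wg P (2 - fl P N e) := by
  have u := (hy.2 e he).up
  have l := (hy.2 e he).lo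
  have e2 : s2 P (N.arc e) (N.X e) = fl P N e + 1 := by
    rw [s2, fl, k.2.2.2.2.2.1, add_div, div_self h.Dpos.ne']
  have e3 : s3 P (N.arc e) (N.X e) = 2 - fl P N e := by
    rw [s3_eq, k.2.2.2.2.2.2]; push_cast; rw [mul_div_assoc, div_self h.Dpos.ne', mul_one]
  rw [k.2.1, k.2.2.1, k.2.2.2.1, k.2.2.2.2.1, (h.arc e he).2.2.1, h.s1_eq he, e2, e3, hy.1] at u l
  unfold wg; push_cast at u l
  constructor <;> linarith

theorem fl_lt_two (h : Shp S P B N) (he : e ∈ N.E) (k : S.U P (N.arc e)) : fl P N e < 2 := by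
  have a := (h.arc e he).2.2.2.2
  rw [k.2.2.2.2.2.2] at a
  rw [fl, div_lt_iff₀ h.Dpos]; exact_mod_cast a

theorem yH_up (h : Shp S P B N) (hy : Dual P N y) (hv : v ∈ S.H) : y v ≤ S.π + 1 / 400 := by
  obtain ⟨e, he, k, rfl⟩ := h.gh v hv
  have := (h.relG hy he k).1
  have := h.wg_pos he
  linarith

theorem yC_lo (h : Shp S P B N) (hy : Dual P N y) (hv : v ∈ S.C) : -(1 / 400) ≤ y v := by
  obtain ⟨e, he, k, rfl⟩ := h.sk v hv
  have := (h.relK hy he k).1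
  have := mul_nonneg (Nat.cast_nonneg (α := ℝ) (N.arc e).c1) (h.wg_pos he).le
  linarith

theorem yH_lo (h : Shp S P B N) (hy : Dual P N y) (hv : v ∈ S.H) : -6 ≤ y v := by
  obtain ⟨e, he, k, rfl, q⟩ := h.exists_outH hv
  have f0 := h.fl_pos he
  have w0 := h.wg_pos he
  rcases le_total 1 (fl P N e) with c | c
  · obtain ⟨i, hi, r⟩ := exists_big (h.hin _ hv) (q ▸ h.pos he)
    obtain ⟨i1, i2⟩ := mem_inn.1 hi
    have : 1 / 4 ≤ fl P N i := by
      rw [q] at r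
      have r' : (N.X e : ℝ) ≤ 4 * N.X i := by exact_mod_cast r
      rw [fl, le_div_iff₀ h.Dpos] at c ⊢; linarith
    have w := h.wg_le (by norm_num) this
    rcases h.kind_inH i1 (i2 ▸ hv) with a | a
    · have := (h.relG hy i1 a).2
      have : (0 : ℝ) ≤ S.π := Nat.cast_nonneg _
      rw [← i2]; norm_num at w; linarith
    · have := (h.relA hy i1 a).2
      have := h.yC_lo hy a.1
      rw [← i2]; norm_num at w; linarith
  · rcases k with a | a
    · have := (h.relU hy he a).1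
      have w := h.wg_le (s := 2 - fl P N e) (t := 1) (by norm_num) (by linarith)
      have : 0 ≤ 2 * (S.Z : ℝ) * wg P (fl P N e + 1) :=
        mul_nonneg (by positivity) (wt_pos (by linarith)).le
      linarith
    · have := (h.relN hy he a).1
      have := h.b64
      have w := h.wg_le (s := (S.b : ℝ) / P.D - fl P N e) (t := 1) (by norm_num) (by linarith)
      have := h.yC_lo hy a.2.1
      linarith

theorem yC_up (h : Shp S P B N) (hy : Dual P N y) (hv : v ∈ S.C) :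
    y v ≤ S.π + 2 + 2 * ((S.W : ℝ) + 1) * (S.k + 1) := by
  obtain ⟨e, he, k, rfl, q⟩ := h.exists_inC hv
  have b := h.b64
  have w0 := h.wg_pos he
  have π0 : (0 : ℝ) ≤ S.π := Nat.cast_nonneg _
  have W0 : (0 : ℝ) ≤ S.W := Nat.cast_nonneg _
  have k0 : (0 : ℝ) ≤ S.k := Nat.cast_nonneg _
  have m0 : 0 ≤ (S.W : ℝ) * S.k := by positivity
  rcases le_total (fl P N e) 32 with c | c
  · have := (h.relN hy he k).1
    have w := h.wg_le (s := (S.b : ℝ) / P.D - fl P N e) (t := 1) (by norm_num) (by linarith)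
    have : y (N.arc e).a ≤ S.π + 1 / 400 := by
      rcases k.1 with a | a
      · exact h.yH_up hy a
      · rw [a, hy.1]; linarith
    nlinarith
  · obtain ⟨i, hi, r⟩ := exists_big (h.cout _ hv) (q ▸ h.pos he)
    obtain ⟨i1, i2⟩ := mem_out.1 hi
    have : 1 / ((S.k : ℝ) + 1) ≤ fl P N i := by
      rw [q] at r
      have r' : (N.X e : ℝ) ≤ S.k * N.X i := by exact_mod_cast r
      have := h.Dpos
      have : (0 : ℝ) < N.X i := by exact_mod_cast h.pos i1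
      rw [fl, le_div_iff₀ h.Dpos] at c
      rw [fl, div_le_div_iff₀ (by positivity) h.Dpos]; nlinarith
    have w : wg P (fl P N i) ≤ S.k + 1 := by
      have := wt_le (σ0_nonneg P) (by positivity) (h.σk.trans
        (one_div_le_one_div_of_le (by positivity) (by linarith))) this
      rwa [one_div_one_div] at this
    rcases h.kind_outC i1 (i2 ▸ hv) with a | a
    · have := (h.relK hy i1 a).2
      have c1 : ((N.arc i).c1 : ℝ) ≤ S.W := by exact_mod_cast a.2.2.2.1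
      have := mul_le_mul c1 w (h.wg_pos i1).le W0
      rw [← i2]; nlinarith
    · have := (h.relA hy i1 a).2
      have := h.yH_up hy a.2.1
      rw [← i2]; nlinarith

/-- the range of the duals -/
theorem y_range (h : Shp S P B N) (hy : Dual P N y) (hv : v ∈ S.H ∨ v ∈ S.C ∨ v = 0) :
    -6 ≤ y v ∧ y v ≤ S.π + 2 + 2 * ((S.W : ℝ) + 1) * (S.k + 1) := by
  have : 0 ≤ 2 * ((S.W : ℝ) + 1) * (S.k + 1) := by positivity
  have π0 : (0 : ℝ) ≤ S.π := Nat.cast_nonneg _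
  rcases hv with a | a | rfl
  · exact ⟨h.yH_lo hy a, by linarith [h.yH_up hy a]⟩
  · exact ⟨by linarith [h.yC_lo hy a], h.yC_up hy a⟩
  · rw [hy.1]; constructor <;> linarith

theorem ends (h : Shp S P B N) (he : e ∈ N.E) :
    ((N.arc e).a ∈ S.H ∨ (N.arc e).a ∈ S.C ∨ (N.arc e).a = 0) ∧
      ((N.arc e).b ∈ S.H ∨ (N.arc e).b ∈ S.C ∨ (N.arc e).b = 0) ∧ (N.arc e).p ≤ S.π ∧
      2 * P.D ≤ (N.arc e).o3 := by
  have := h.b2
  have := h.M2
  rcases h.kind e he with a | a | a | a | a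
  · exact ⟨.inr (.inr a.1), .inl a.2.1, a.2.2.1.le, by rw [a.2.2.2.2.2]; omega⟩
  · exact ⟨.inl a.1, .inr (.inr a.2.1), by rw [a.2.2.1]; omega, a.2.2.2.2.2.2.ge⟩
  · exact ⟨a.1.elim .inl fun a => .inr (.inr a), .inr (.inl a.2.1), by rw [a.2.2.1]; omega,
      by rw [a.2.2.2.2.2]; omega⟩
  · exact ⟨.inr (.inl a.1), .inr (.inr a.2.1), by rw [a.2.2.1]; omega, by rw [a.2.2.2.2.2]; omega⟩
  · exact ⟨.inr (.inl a.1), .inl a.2.1, by rw [a.2.2.1]; omega, by rw [a.2.2.2.2.2]; omega⟩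

/-- **floor**: in a quiet state every flow and every slack is at least `lam` -/
theorem floor (h : Shp S P B N) (hq : Quiet P N) {lam : ℕ}
    (hl : lam * (2 * (2 * S.π + 8 + 2 * (S.W + 1) * (S.k + 1) + B.cb)) ≤ P.D) (he : e ∈ N.E) :
    (lam : ℤ) ≤ N.X e ∧ (lam : ℤ) ≤ (N.arc e).o3 - N.X e := by
  obtain ⟨y, hy⟩ := Quiet.dual hq
  obtain ⟨a, b, p, o⟩ := h.ends he
  obtain ⟨hA, o1, -, x0, x1⟩ := h.arc e he
  have ra := h.y_range hy a
  have rb := h.y_range hy b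
  have hσ : P.s0 ≤ P.D := by have := h.σ; nlinarith
  have := (hy.2 e he).floor (Y := S.π + 8 + 2 * ((S.W : ℝ) + 1) * (S.k + 1)) h.D hσ hA
    (by rw [o1]; simpa using x0) (by omega) (by omega) (abs_le.2 ⟨by linarith, by linarith⟩)
  have p' : ((N.arc e).p : ℝ) ≤ S.π := by exact_mod_cast p
  have c' : ((N.arc e).c1 : ℝ) + (N.arc e).c2 + (N.arc e).c3 ≤ B.cb := by
    exact_mod_cast hA.2.2.2.2.2.2.1
  have hl' : (lam : ℝ) * (2 * (2 * S.π + 8 + 2 * (S.W + 1) * (S.k + 1) + B.cb)) ≤ P.D := by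
    exact_mod_cast hl
  have key : (lam : ℝ) / P.D ≤ 1 / (2 * (S.π + 8 + 2 * ((S.W : ℝ) + 1) * (S.k + 1) +
      (N.arc e).p + (N.arc e).c1 + (N.arc e).c2 + (N.arc e).c3)) := by
    rw [div_le_div_iff₀ h.Dpos (by positivity), one_mul]
    exact le_trans (mul_le_mul_of_nonneg_left (by linarith) (Nat.cast_nonneg _)) hl'
  have k1 := key.trans this.1
  have k3 := key.trans this.2
  rw [s1, div_le_div_iff_of_pos_right h.Dpos, o1] at k1
  rw [s3, div_le_div_iff_of_pos_right h.Dpos] at k3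
  exact ⟨by exact_mod_cast (by simpa using k1 : (lam : ℝ) ≤ N.X e), by exact_mod_cast k3⟩

end Shp

end Crest.Agent.N325.Du
end

-- ▼ part N325/Du/Good
section

/-!
# Row 325, P2 (helper61): consequences of bounded prices, falls along arcs
-/

set_option autoImplicit false
open Finset

namespace Crest.Agent.N325.Du

open Crest.Agent.N325.Ip Crest.Agent.N325.Ipm

variable {S : Sh} {P : Pm} {B : Bn} {N : Net} {e v Q : ℕ} {y : ℕ → ℝ}

/-- all prices are at most `2 Q`, the ghosts cost `5 Q` -/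
structure Clm (S : Sh) (P : Pm) (N : Net) (Q : ℕ) : Prop where
  π : S.π = 5 * Q
  Z : S.Z ≤ Q
  Q1 : 1 ≤ Q
  σ : 2 * Q * P.s0 ≤ P.D
  snk : ∀ e ∈ N.E, S.K (N.arc e) → ((N.arc e).c1 * P.D : ℤ) ≤ 2 * Q * N.X e

namespace Shp

theorem wg_eq (h : Shp S P B N) (k : (P.s0 : ℤ) ≤ N.X e) : wg P (fl P N e) = P.D / N.X e := by
  have k' : (P.s0 : ℝ) ≤ N.X e := by exact_mod_cast k
  rw [wg, fl, σ0, wt_of_le (div_le_div_of_nonneg_right k' h.Dpos.le), one_div_div]

theorem le_wg (h : Shp S P B N) (he : e ∈ N.E) : (P.D : ℝ) / N.X e ≤ wg P (fl P N e) := by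
  rw [← one_div_div]; exact one_div_le_wt (h.fl_pos he)

/-- the dual falls by at most `1.1 / flow` along a plain arc or a node arc -/
theorem fall (h : Shp S P B N) (hy : Dual P N y) (he : e ∈ N.E)
    (k : S.A (N.arc e) ∨ S.N (N.arc e)) (f : (P.s0 : ℤ) ≤ N.X e) :
    y (N.arc e).a - 11 / 10 * ((P.D : ℝ) / N.X e) ≤ y (N.arc e).b := by
  rw [← h.wg_eq f]
  rcases k with a | a
  · exact (h.relA hy he a).2
  · have := (h.relN hy he a).2
    have : 0 < wg P ((S.b : ℝ) / P.D - fl P N e) := wt_pos (by linarith [h.fl_lt_b he])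
    linarith

/-- the dual of a class is its price -/
theorem price_le (h : Shp S P B N) (hy : Dual P N y) (he : e ∈ N.E) (k : S.K (N.arc e)) :
    9 / 10 * ((N.arc e).c1 * ((P.D : ℝ) / N.X e)) - 1 / 400 ≤ y (N.arc e).a := by
  have := (h.relK hy he k).1
  have := mul_le_mul_of_nonneg_left (h.le_wg he) (Nat.cast_nonneg (α := ℝ) (N.arc e).c1)
  linarith

theorem le_price (h : Shp S P B N) (hy : Dual P N y) (he : e ∈ N.E) (k : S.K (N.arc e))
    (f : (P.s0 : ℤ) ≤ N.X e) : y (N.arc e).a ≤ 11 / 10 * ((N.arc e).c1 * ((P.D : ℝ) / N.X e)) := by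
  rw [← h.wg_eq f]; exact (h.relK hy he k).2

theorem pend_le' (h : Shp S P B N) (hy : Dual P N y) (he : e ∈ N.E) (k : S.U P (N.arc e)) :
    y (N.arc e).a ≤ 11 / 10 * wg P (fl P N e) + 11 / 5 * S.Z := by
  have := (h.relU hy he k).2
  have f0 := h.fl_pos he
  have : 0 < wg P (2 - fl P N e) := wt_pos (by linarith [h.fl_lt_two he k])
  have w := h.wg_le (s := fl P N e + 1) (t := 1) (by norm_num) (by linarith)
  have := mul_le_mul_of_nonneg_left w (by positivity : (0 : ℝ) ≤ 2 * S.Z)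
  linarith

/-- the dual of a pending vertex is small unless its sink is nearly empty -/
theorem pend_le (h : Shp S P B N) (hy : Dual P N y) (he : e ∈ N.E) (k : S.U P (N.arc e))
    (f : (P.s0 : ℤ) ≤ N.X e) : y (N.arc e).a ≤ 11 / 10 * ((P.D : ℝ) / N.X e) + 11 / 5 * S.Z := by
  rw [← h.wg_eq f]; exact h.pend_le' hy he k

/-- the dual of a pending vertex that does not ask for a label -/
theorem le_pend (h : Shp S P B N) (hy : Dual P N y) (he : e ∈ N.E) (k : S.U P (N.arc e))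
    (f : 10 * N.X e ≤ 11 * P.D) : 6 / 7 * (S.Z : ℝ) - 1 ≤ y (N.arc e).a := by
  have := (h.relU hy he k).1
  have f0 := h.fl_pos he
  have f1 : fl P N e ≤ 11 / 10 := by
    have : (10 : ℝ) * N.X e ≤ 11 * P.D := by exact_mod_cast f
    rw [fl, div_le_iff₀ h.Dpos]; linarith
  have w := h.wg_le (s := 2 - fl P N e) (t := 9 / 10) (by norm_num) (by linarith)
  have w1 : 1 / (11 / 10) ≤ wg P (fl P N e) :=
    (one_div_le_one_div_of_le f0 f1).trans (one_div_le_wt f0)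
  have w2 : 1 / (21 / 10) ≤ wg P (fl P N e + 1) :=
    (one_div_le_one_div_of_le (by linarith) (by linarith)).trans (one_div_le_wt (by linarith))
  have := mul_le_mul_of_nonneg_left w2 (by positivity : (0 : ℝ) ≤ 2 * S.Z)
  norm_num at w w1 this ⊢
  linarith

theorem yC_clm (h : Shp S P B N) (hy : Dual P N y) (c : Clm S P N Q) (hv : v ∈ S.C) :
    y v ≤ 11 / 5 * Q := by
  obtain ⟨e, he, k, rfl⟩ := h.sk v hv
  have a := c.snk e he k
  have c1 := (h.arc e he).1.2.2.2.2.1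
  have x0 := h.pos he
  have f : (P.s0 : ℤ) ≤ N.X e := by
    have s : ((2 * Q * P.s0 : ℕ) : ℤ) ≤ P.D := by exact_mod_cast c.σ
    have q : (1 : ℤ) ≤ Q := by exact_mod_cast c.Q1
    have : (1 : ℤ) ≤ (N.arc e).c1 := by exact_mod_cast c1
    have : (0 : ℤ) ≤ P.D := Nat.cast_nonneg _
    push_cast at s
    have : 2 * (Q : ℤ) * P.s0 ≤ 2 * Q * N.X e := by nlinarith
    exact le_of_mul_le_mul_left this (by omega)
  have := h.le_price hy he k f
  have a' : ((N.arc e).c1 : ℝ) * P.D ≤ 2 * Q * N.X e := by exact_mod_cast a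
  have : ((N.arc e).c1 : ℝ) * ((P.D : ℝ) / N.X e) ≤ 2 * Q := by
    rw [← mul_div_assoc, div_le_iff₀ (by exact_mod_cast x0)]; exact a'
  linarith

/-- **ghosts carry almost nothing** -/
theorem ghost_le (h : Shp S P B N) (hq : Quiet P N) (c : Clm S P N Q) (he : e ∈ N.E)
    (k : S.G (N.arc e)) : Q * N.X e ≤ P.D := by
  obtain ⟨y, hy⟩ := Quiet.dual hq
  obtain ⟨i, hi, q, r, -⟩ := h.exists_outH k.2.1
  have l := (h.relG hy he k).2
  have w := h.wg_anti he (h.in_le_out he hi k.2.1 r)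
  have Q1 : (1 : ℝ) ≤ Q := by exact_mod_cast c.Q1
  have u : y (N.arc e).b ≤ 11 / 10 * wg P (fl P N e) + 11 / 5 * Q := by
    rw [← r]
    rcases q with a | a
    · have := h.pend_le' hy hi a
      have : (S.Z : ℝ) ≤ Q := by exact_mod_cast c.Z
      linarith
    · have := (h.relN hy hi a).2
      have : 0 < wg P ((S.b : ℝ) / P.D - fl P N i) := wt_pos (by linarith [h.fl_lt_b hi])
      have := h.yC_clm hy c a.2.1
      linarith
  rw [c.π] at l
  push_cast at l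
  by_contra k'
  have k2 : (P.D : ℝ) < Q * N.X e := by exact_mod_cast not_le.1 k'
  have s : 2 * (Q : ℝ) * P.s0 ≤ P.D := by exact_mod_cast c.σ
  have : wg P (fl P N e) ≤ 1 / (1 / Q) := wt_le (σ0_nonneg P) (by positivity) (by
      rw [σ0, div_le_div_iff₀ h.Dpos (by positivity)]
      have : (0 : ℝ) ≤ Q * P.s0 := by positivity
      linarith) (by rw [fl, div_le_div_iff₀ (by positivity) h.Dpos]; linarith)
  rw [one_div_one_div] at this
  linarith

/-- **closed sets**: a set of heads and classes whose arcs come from inside, from ghosts or from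
the list `R` of entries has small sinks -/
theorem closed (h : Shp S P B N) (hq : Quiet P N) (c : Clm S P N Q) {A C R : Finset ℕ}
    (hA : A ⊆ S.H) (hC : C ⊆ S.C) (hR : R ⊆ N.E)
    (cl : ∀ e ∈ N.E, (N.arc e).b ∈ A ∪ C → (N.arc e).a ∈ A ∪ C ∨ S.G (N.arc e) ∨ e ∈ R)
    {w : ℕ → ℕ} (hw : ∀ e ∈ N.E, S.K (N.arc e) → (N.arc e).a ∈ C → w (N.arc e).a ≤ (N.arc e).c1) :
    (∑ c ∈ C, w c) * P.D ≤ 8 * A.card * P.D + 2 * Q * R.card * S.b := by
  classical
  have h0 : 0 ∉ A ∪ C := fun k => (mem_union.1 k).elim (fun k => h.h0 (hA k)) fun k => h.c0 (hC k)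
  have cs := h.cons_set h0
  have p : ∀ i ∈ N.E, 0 ≤ N.X i := fun i k => (h.pos k).le
  set I := N.E.filter fun e => (N.arc e).a ∈ A ∪ C ∧ (N.arc e).b ∈ A ∪ C
  set K := N.E.filter fun e => S.K (N.arc e) ∧ (N.arc e).a ∈ C
  set G := N.E.filter fun e => S.G (N.arc e) ∧ (N.arc e).b ∈ A
  have o : ∑ e ∈ I, N.X e + ∑ e ∈ K, N.X e ≤ ∑ e ∈ N.E with (N.arc e).a ∈ A ∪ C, N.X e := by
    have dj : Disjoint I K := disjoint_filter.2 fun e _ a b => h0 (b.1.2.1 ▸ a.2)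
    rw [← sum_union dj]
    refine sum_le_sum_of_subset_of_nonneg (fun e k => ?_) fun i k _ => p i (mem_filter.1 k).1
    rcases mem_union.1 k with k | k <;> rw [mem_filter] at k ⊢
    exacts [⟨k.1, k.2.1⟩, ⟨k.1, mem_union_right _ k.2.2⟩]
  have i : ∑ e ∈ N.E with (N.arc e).b ∈ A ∪ C, N.X e ≤
      ∑ e ∈ I, N.X e + ∑ e ∈ G, N.X e + ∑ e ∈ R, N.X e := by
    have s : (N.E.filter fun e => (N.arc e).b ∈ A ∪ C) ⊆ I ∪ G ∪ R := fun e k => by
      obtain ⟨k1, k2⟩ := mem_filter.1 k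
      rcases cl e k1 k2 with a | a | a
      · exact mem_union_left _ (mem_union_left _ (mem_filter.2 ⟨k1, a, k2⟩))
      · exact mem_union_left _ (mem_union_right _ (mem_filter.2 ⟨k1, a,
          (mem_union.1 k2).resolve_right fun b => h.notC a.2.1 (hC b)⟩))
      · exact mem_union_right _ a
    have u : ∀ s t : Finset ℕ, s ⊆ N.E → t ⊆ N.E →
        ∑ e ∈ s ∪ t, N.X e ≤ ∑ e ∈ s, N.X e + ∑ e ∈ t, N.X e := fun s t a _ => by
      rw [← sum_union_inter]
      exact le_add_of_nonneg_right (sum_nonneg fun i k => p i (a (mem_inter.1 k).1))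
    have IG : I ∪ G ⊆ N.E := union_subset (filter_subset _ _) (filter_subset _ _)
    refine (sum_le_sum_of_subset_of_nonneg s fun i k _ => p i (union_subset IG hR k)).trans
      ((u _ _ IG hR).trans ?_)
    linarith [u I G (filter_subset _ _) (filter_subset _ _)]
  have g : (Q : ℤ) * ∑ e ∈ G, N.X e ≤ 4 * A.card * P.D := by
    have c1 : G.card ≤ 4 * A.card := by
      refine card_le_mul_card_image_of_maps_to (f := fun e => (N.arc e).b)
        (fun e k => (mem_filter.1 k).2.2) 4 fun a ha => le_trans (card_le_card fun e k => ?_)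
        (h.hin a (hA ha))
      rw [mem_filter] at k
      exact mem_inn.2 ⟨(mem_filter.1 k.1).1, k.2⟩
    rw [mul_sum]
    refine (sum_le_card_nsmul _ _ (P.D : ℤ) fun e k => h.ghost_le hq c (mem_filter.1 k).1
      (mem_filter.1 k).2.1).trans ?_
    rw [nsmul_eq_mul]
    exact mul_le_mul_of_nonneg_right (by exact_mod_cast c1) (Nat.cast_nonneg _)
  have r : ∑ e ∈ R, N.X e ≤ R.card * S.b := by
    rw [← nsmul_eq_mul]; exact sum_le_card_nsmul _ _ _ fun e k => (h.lt_b (hR k)).le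
  have k : (∑ c ∈ C, (w c : ℤ)) * P.D ≤ 2 * Q * ∑ e ∈ K, N.X e := by
    rw [← sum_fiberwise_of_maps_to (s := K) (t := C) (g := fun e => (N.arc e).a)
      fun e k => (mem_filter.1 k).2.2, sum_mul, mul_sum]
    refine sum_le_sum fun v hv => ?_
    obtain ⟨e, he, a, rfl⟩ := h.sk v (hC hv)
    have := c.snk e he a
    have w1 : (w (N.arc e).a : ℤ) ≤ (N.arc e).c1 := by exact_mod_cast hw e he a hv
    have s : N.X e ≤ ∑ i ∈ K with (N.arc i).a = (N.arc e).a, N.X i :=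
      single_le_sum (fun i k => p i (mem_filter.1 (mem_filter.1 k).1).1)
        (mem_filter.2 ⟨mem_filter.2 ⟨he, a, hv⟩, rfl⟩)
    have : (0 : ℤ) ≤ P.D := Nat.cast_nonneg _
    have : (0 : ℤ) ≤ Q := Nat.cast_nonneg _
    nlinarith
  have q : (0 : ℤ) ≤ Q := Nat.cast_nonneg _
  have : (∑ c ∈ C, (w c : ℤ)) * P.D ≤ 8 * A.card * P.D + 2 * Q * R.card * S.b := by nlinarith
  exact_mod_cast this

end Shp

end Crest.Agent.N325.Du
end

-- ▼ part N325/P2/Dual

/-!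
# Row 325, part II (helper61): the network of the machine has the shape `Du.Shp`
-/

set_option autoImplicit false
open Finset

namespace Crest.Agent.N325.P2

open Crest.Agent.N325.Tw Crest.Agent.N325.Ip Crest.Agent.N325.Mt Crest.Agent.N325.Bf
  Crest.Agent.N325.Du

/-- the shape of the network -/
def shp (C : Cf) (G : Gf) (d : Dt) : Du.Sh :=
  ⟨((range G.n).filter (d.st.get · ≠ 2)).image (· + 1),
    ((range G.n).filter (isC G d)).image (· + 1),
    5 * C.Ph * C.Z, C.Z, C.B, C.M, C.Z * (G.n + 1), 3 * G.n + 1⟩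

section cases
variable {D : ℕ} {C : Cf} {G : Gf} {d : Dt} {N : Net} {e v : ℕ}

theorem mem_shpH : v + 1 ∈ (shp C G d).H ↔ v < G.n ∧ d.st.get v ≠ 2 := by simp [shp]
theorem mem_shpC : v + 1 ∈ (shp C G d).C ↔ isC G d v := by
  simp only [shp, mem_image, mem_filter, mem_range, add_left_inj, exists_eq_right]
  exact ⟨fun k => k.2, fun k => ⟨k.1, k⟩⟩
theorem of_shpH (k : v ∈ (shp C G d).H) : ∃ u, v = u + 1 ∧ u < G.n ∧ d.st.get u ≠ 2 := by
  obtain ⟨u, a, rfl⟩ := mem_image.1 k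
  exact ⟨u, rfl, mem_shpH.1 k⟩
theorem of_shpC (k : v ∈ (shp C G d).C) : ∃ u, v = u + 1 ∧ isC G d u := by
  obtain ⟨u, a, rfl⟩ := mem_image.1 k
  exact ⟨u, rfl, mem_shpC.1 k⟩

/-- the five kinds of arcs -/
theorem Arcs.cases (h : Arcs D C G d N) (he : e ∈ N.E) :
    (∃ o, e = 5 * o ∧ o < G.nd ∧ d.pr.get o = true ∧ N.arc e = aP C G d o) ∨
    (∃ v, e = 5 * v + 1 ∧ v < G.n ∧ (d.st.get v = 1 ∨ d.mt.get v = v) ∧ N.arc e = aE C d v) ∨
    (∃ c, e = 5 * c + 2 ∧ isC G d c ∧ N.arc e = snkA C c (d.cw.get c + 1)) ∨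
    (∃ v, e = 5 * v + 3 ∧ v < G.n ∧ d.st.get v ≠ 2 ∧ N.arc e = aG C v) ∨
    (∃ v, e = 5 * v + 4 ∧ v < G.n ∧ d.st.get v = 0 ∧ N.arc e = aU D C v) := by
  have a := (h.mem e).1 he
  have b := h.arc e he
  unfold has at a
  unfold arcOf at b
  split_ifs at a b with h0 h1 h2 h3
  · exact .inl ⟨_, by omega, a.1, a.2, b⟩
  · exact .inr (.inl ⟨_, by omega, a.1, a.2, b⟩)
  · exact .inr (.inr (.inl ⟨_, by omega, a, b⟩))
  · exact .inr (.inr (.inr (.inl ⟨_, by omega, a.1, a.2, b⟩)))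
  · exact .inr (.inr (.inr (.inr ⟨_, by omega, a.1, a.2, b⟩)))

theorem Arcs.of_has (h : Arcs D C G d N) (k : has G d e) :
    e ∈ N.E ∧ N.arc e = arcOf D C G d e := ⟨(h.mem e).2 k, h.arc e ((h.mem e).2 k)⟩

theorem Arcs.plain (h : Arcs D C G d N) {o : ℕ} (ho : o < G.nd) (k : d.pr.get o = true) :
    5 * o ∈ N.E ∧ N.arc (5 * o) = aP C G d o := by
  have e0 : 5 * o % 5 = 0 := by omega
  have e1 : 5 * o / 5 = o := by omega
  have := h.of_has (e := 5 * o) (by simp only [has, e0, e1]; exact ⟨ho, k⟩)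
  simpa only [arcOf, e0, e1, if_true] using this

theorem Arcs.entry (h : Arcs D C G d N) (hv : v < G.n) (k : d.st.get v = 1 ∨ d.mt.get v = v) :
    5 * v + 1 ∈ N.E ∧ N.arc (5 * v + 1) = aE C d v := by
  have e0 : (5 * v + 1) % 5 = 1 := by omega
  have e1 : (5 * v + 1) / 5 = v := by omega
  have := h.of_has (e := 5 * v + 1) (by simp only [has, e0, e1]; exact ⟨hv, k⟩)
  simpa [arcOf, e0, e1] using this

theorem Arcs.sink (h : Arcs D C G d N) (k : isC G d v) :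
    5 * v + 2 ∈ N.E ∧ N.arc (5 * v + 2) = snkA C v (d.cw.get v + 1) := by
  have e0 : (5 * v + 2) % 5 = 2 := by omega
  have e1 : (5 * v + 2) / 5 = v := by omega
  have := h.of_has (e := 5 * v + 2) (by simp only [has, e0, e1]; exact k)
  simpa [arcOf, e0, e1] using this

theorem Arcs.ghost (h : Arcs D C G d N) (hv : v < G.n) (k : d.st.get v ≠ 2) :
    5 * v + 3 ∈ N.E ∧ N.arc (5 * v + 3) = aG C v := by
  have e0 : (5 * v + 3) % 5 = 3 := by omega
  have e1 : (5 * v + 3) / 5 = v := by omega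
  have := h.of_has (e := 5 * v + 3) (by simp only [has, e0, e1]; exact ⟨hv, k⟩)
  simpa [arcOf, e0, e1] using this

theorem Arcs.pend (h : Arcs D C G d N) (hv : v < G.n) (k : d.st.get v = 0) :
    5 * v + 4 ∈ N.E ∧ N.arc (5 * v + 4) = aU D C v := by
  have e0 : (5 * v + 4) % 5 = 4 := by omega
  have e1 : (5 * v + 4) / 5 = v := by omega
  have := h.of_has (e := 5 * v + 4) (by simp only [has, e0, e1]; exact ⟨hv, k⟩)
  simpa [arcOf, e0, e1] using this

/-- exposed vertices are outer -/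
theorem Cmb.root_st (h : Cmb G d) (hv : v < G.n) (k : d.mt.get v = v) : d.st.get v = 2 := by
  have a := h.st_le v hv
  have b := h.unl v hv
  have c := h.inn v hv
  rw [k] at b c
  omega

/-- the tail of an entry arc is the mate of the base of its head -/
theorem Cmb.entry (h : Cmb G d) (hv : v < G.n) (k : d.st.get v = 1 ∨ d.mt.get v = v) :
    isC G d (d.cls.get (d.mt.get v)) ∧ d.bs.get (d.cls.get (d.mt.get v)) = d.mt.get v := by
  rcases k with k | k
  · exact ⟨h.out _ (h.mt_lt hv) (h.inn v hv k).1, (h.inn v hv k).2⟩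
  · have s := h.root_st hv k
    have c := h.out v hv s
    rw [k]
    refine ⟨c, by_contra fun ne => ?_⟩
    exact (h.inside _ c v ((h.mem _ c v).2 ⟨hv, s, rfl⟩) (Ne.symm ne)).2 k

/-- the base of a class -/
theorem Cmb.base (h : Cmb G d) (hc : isC G d v) : d.bs.get v < G.n ∧ d.st.get (d.bs.get v) = 2 ∧
    d.cls.get (d.bs.get v) = v := (h.mem v hc _).1 (h.bs v hc).1

/-- the entry arc of a class -/
theorem Cmb.ent (h : Cmb G d) (hc : isC G d v) : d.mt.get (d.bs.get v) < G.n ∧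
    (d.st.get (d.mt.get (d.bs.get v)) = 1 ∨
      d.mt.get (d.mt.get (d.bs.get v)) = d.mt.get (d.bs.get v)) ∧
    d.cls.get (d.mt.get (d.mt.get (d.bs.get v))) = v := by
  obtain ⟨a, -, c⟩ := h.base hc
  refine ⟨h.mt_lt a, ?_, by rw [h.mt_mt a, c]⟩
  rcases (h.bs v hc).2 with k | k
  · exact .inr (by rw [k, k])
  · exact .inl k

theorem Arcs.kind (h : Arcs D C G d N) (c : Cmb G d) (w : G.WF) {P : Pm} (hD : P.D = D)
    (he : e ∈ N.E) : (shp C G d).G (N.arc e) ∨ (shp C G d).U P (N.arc e) ∨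
      (shp C G d).N (N.arc e) ∨ (shp C G d).K (N.arc e) ∨ (shp C G d).A (N.arc e) := by
  rcases h.cases he with ⟨o, -, a, b, q⟩ | ⟨v, -, a, b, q⟩ | ⟨v, -, a, q⟩ | ⟨v, -, a, b, q⟩ |
    ⟨v, -, a, b, q⟩ <;> rw [q]
  · obtain ⟨s1, s2, -⟩ := c.pr o a b
    exact .inr (.inr (.inr (.inr ⟨mem_shpC.2 (c.out _ (w.tl_lt o a) s1),
      mem_shpH.2 ⟨w.hd_lt a, s2⟩, rfl, rfl, rfl, rfl⟩)))
  · refine .inr (.inr (.inl ⟨?_, mem_shpC.2 (c.entry a b).1, rfl, rfl, rfl, rfl⟩))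
    by_cases k : d.mt.get v = v
    · exact .inr (if_pos k)
    · refine .inl ?_
      change (if _ then _ else _) ∈ _
      rw [if_neg k]
      exact mem_shpH.2 ⟨a, by have := b.resolve_right k; omega⟩
  · exact .inr (.inr (.inr (.inl ⟨mem_shpC.2 a, rfl, rfl,
      Nat.mul_le_mul_left _ (Nat.succ_le_succ (c.cw_le a).2), rfl, rfl⟩)))
  · exact .inl ⟨rfl, mem_shpH.2 ⟨a, b⟩, rfl, rfl, rfl, rfl⟩
  · exact .inr (.inl ⟨mem_shpH.2 ⟨a, by omega⟩, rfl, rfl, rfl, rfl, hD.symm, hD ▸ rfl⟩)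

/-- arcs out of a head -/
theorem Arcs.out_head (h : Arcs D C G d N) (c : Cmb G d) (w : G.WF) (s : d.st.get v ≠ 2)
    (he : e ∈ N.E) (k : (N.arc e).a = v + 1) :
    (e = 5 * v + 1 ∧ d.st.get v = 1) ∨ (e = 5 * v + 4 ∧ d.st.get v = 0) := by
  rcases h.cases he with ⟨o, -, a, b, q⟩ | ⟨u, r, a, b, q⟩ | ⟨u, -, a, q⟩ | ⟨u, -, a, b, q⟩ |
    ⟨u, r, a, b, q⟩ <;> rw [q] at k
  · have := (c.out _ (w.tl_lt o a) (c.pr o a b).1).2.1
    rw [Nat.succ_injective k] at this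
    exact absurd this s
  · change (if _ then _ else _) = _ at k
    split_ifs at k with k'
    obtain rfl := Nat.succ_injective k
    exact .inl ⟨r, b.resolve_right k'⟩
  · obtain rfl := Nat.succ_injective k
    exact absurd a.2.1 s
  · exact absurd k (Nat.succ_ne_zero v).symm
  · obtain rfl := Nat.succ_injective k
    exact .inr ⟨r, b⟩

/-- arcs into a head -/
theorem Arcs.in_head (h : Arcs D C G d N) (c : Cmb G d) (s : d.st.get v ≠ 2)
    (he : e ∈ N.E) (k : (N.arc e).b = v + 1) :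
    e = 5 * v + 3 ∨ ∃ o, e = 5 * o ∧ o < G.nd ∧ d.pr.get o = true ∧ G.hd o = v := by
  rcases h.cases he with ⟨o, r, a, b, q⟩ | ⟨u, r, a, b, q⟩ | ⟨u, -, a, q⟩ | ⟨u, r, a, b, q⟩ |
    ⟨u, r, a, b, q⟩ <;> rw [q] at k
  · exact .inr ⟨o, r, a, b, Nat.succ_injective k⟩
  · have := (c.entry a b).1.2.1
    rw [Nat.succ_injective k] at this
    exact absurd this s
  · exact absurd k (Nat.succ_ne_zero v).symm
  · obtain rfl := Nat.succ_injective k
    exact .inl r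
  · exact absurd k (Nat.succ_ne_zero v).symm

/-- the arc into a class -/
theorem Arcs.in_cls (h : Arcs D C G d N) (c : Cmb G d) (s : isC G d v)
    (he : e ∈ N.E) (k : (N.arc e).b = v + 1) : e = 5 * d.mt.get (d.bs.get v) + 1 := by
  rcases h.cases he with ⟨o, r, a, b, q⟩ | ⟨u, r, a, b, q⟩ | ⟨u, -, a, q⟩ | ⟨u, r, a, b, q⟩ |
    ⟨u, r, a, b, q⟩ <;> rw [q] at k
  · have := (c.pr o a b).2.1
    rw [show G.hd o = v from Nat.succ_injective k] at this
    exact absurd s.2.1 this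
  · have := (c.entry a b).2
    rw [show d.cls.get (d.mt.get u) = v from Nat.succ_injective k] at this
    rw [this, c.mt_mt a, r]
  · exact absurd k (Nat.succ_ne_zero v).symm
  · obtain rfl := Nat.succ_injective k
    exact absurd s.2.1 b
  · exact absurd k (Nat.succ_ne_zero v).symm

/-- arcs out of a class -/
theorem Arcs.out_cls (h : Arcs D C G d N) (s : isC G d v)
    (he : e ∈ N.E) (k : (N.arc e).a = v + 1) :
    e = 5 * v + 2 ∨ ∃ o, e = 5 * o ∧ o < G.nd ∧ d.pr.get o = true ∧ d.cls.get (G.tl.get o) = v := by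
  have s2 := s.2.1
  rcases h.cases he with ⟨o, r, a, b, q⟩ | ⟨u, r, a, b, q⟩ | ⟨u, r, a, q⟩ | ⟨u, r, a, b, q⟩ |
    ⟨u, r, a, b, q⟩ <;> rw [q] at k
  · exact .inr ⟨o, r, a, b, Nat.succ_injective k⟩
  · change (if _ then _ else _) = _ at k
    split_ifs at k with k'
    obtain rfl := Nat.succ_injective k
    have := b.resolve_right k'
    omega
  · obtain rfl := Nat.succ_injective k
    exact .inl r
  · exact absurd k (Nat.succ_ne_zero v).symm
  · obtain rfl := Nat.succ_injective k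
    omega

theorem Arcs.o1_c3 (h : Arcs D C G d N) (he : e ∈ N.E) : (N.arc e).o1 = 0 ∧ (N.arc e).c3 = 1 := by
  rcases h.cases he with ⟨o, -, a, b, q⟩ | ⟨v, -, a, b, q⟩ | ⟨v, -, a, q⟩ | ⟨v, -, a, b, q⟩ |
    ⟨v, -, a, b, q⟩ <;> rw [q] <;> exact ⟨rfl, rfl⟩

end cases

namespace Cx
variable {T : Type} {X : Cx T} {d : Dt} {N : Net} {s : Ip.St T}

/-- **the shape** -/
theorem Ok.shp (h : X.Ok) (hI : X.I s N) (ha : Arcs X.P.D X.C X.G d N) (hc : Cmb X.G d) :
    Shp (shp X.C X.G d) X.P X.Bd N where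
  D := h.D_pos
  h0 := fun k => by obtain ⟨u, a, -⟩ := of_shpH k; omega
  c0 := fun k => by obtain ⟨u, a, -⟩ := of_shpC k; omega
  dj := disjoint_left.2 fun v a b => by
    obtain ⟨u, rfl, -, k⟩ := of_shpH a
    exact k (mem_shpC.1 b).2.1
  b2 := by have := h.B.2; change _ ≤ X.C.B; omega
  M2 := by
    have := h.M
    change 8 * X.C.B ≤ X.C.M
    nlinarith
  σ := by
    have a := h.sm.2.2
    have b := h.cb
    refine le_trans ?_ h.lam
    change 8 * (3 * X.G.n + 1 + 1) * X.P.s0 ≤ _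
    calc _ ≤ 1000 * X.P.s0 * 1 * (3 * X.G.n + 4) := by nlinarith
      _ ≤ _ := by gcongr; omega
  arc := fun e he => by
    obtain ⟨-, a, b, -⟩ := h.ip.view hI e he
    obtain ⟨o, c⟩ := ha.o1_c3 he
    have := h.sm.1
    unfold Dom at b
    exact ⟨a, o, c, by omega, by omega⟩
  kind := fun e he => ha.kind hc h.wf rfl he
  cons := fun v hv => sub_eq_zero.1 ((Op.dv_eq N v).symm.trans (Op.cons_of_circ ha.circ v hv))
  gh := fun v hv => by
    obtain ⟨u, rfl, a, b⟩ := of_shpH hv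
    obtain ⟨p, q⟩ := ha.ghost a b
    exact ⟨_, p, q ▸ ⟨rfl, hv, rfl, rfl, rfl, rfl⟩, q ▸ rfl⟩
  sk := fun v hv => by
    obtain ⟨u, rfl, a⟩ := of_shpC hv
    obtain ⟨p, q⟩ := ha.sink a
    exact ⟨_, p, q ▸ ⟨hv, rfl, rfl, Nat.mul_le_mul_left _ (Nat.succ_le_succ (hc.cw_le a).2), rfl,
      rfl⟩, q ▸ rfl⟩
  hout := fun v hv => by
    obtain ⟨u, rfl, -, b⟩ := of_shpH hv
    refine card_le_one.2 fun e he e' he' => ?_
    have a := ha.out_head hc h.wf b (mem_out.1 he).1 (mem_out.1 he).2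
    have a' := ha.out_head hc h.wf b (mem_out.1 he').1 (mem_out.1 he').2
    omega
  hin := fun v hv => by
    obtain ⟨u, rfl, a, b⟩ := of_shpH hv
    refine le_trans (card_le_card (t := insert (5 * u + 3)
      ((X.G.adj.get u).toFinset.image fun o => 5 * rv o)) fun e he => ?_) ?_
    · rcases ha.in_head hc b (mem_inn.1 he).1 (mem_inn.1 he).2 with k | ⟨o, k, k1, -, k2⟩
      · exact k ▸ mem_insert_self _ _
      · exact mem_insert_of_mem (mem_image.2 ⟨rv o, List.mem_toFinset.2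
          ((h.wf.mem u a _).2 ⟨h.wf.rv_lt k1, k2⟩), by rw [rv_rv, k]⟩)
    · exact (card_insert_le _ _).trans (Nat.succ_le_succ (card_image_le.trans
        ((List.toFinset_card_le _).trans (h.wf.deg u))))
  cin := fun v hv => by
    obtain ⟨u, rfl, a⟩ := of_shpC hv
    exact card_le_one.2 fun e he e' he' =>
      (ha.in_cls hc a (mem_inn.1 he).1 (mem_inn.1 he).2).trans
        (ha.in_cls hc a (mem_inn.1 he').1 (mem_inn.1 he').2).symm
  cout := fun v hv => by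
    obtain ⟨u, rfl, a⟩ := of_shpC hv
    refine le_trans (card_le_card (t := insert (5 * u + 2)
      ((range X.G.nd).image fun o => 5 * o)) fun e he => ?_) ?_
    · rcases ha.out_cls a (mem_out.1 he).1 (mem_out.1 he).2 with k | ⟨o, k, k1, -⟩
      · exact k ▸ mem_insert_self _ _
      · exact mem_insert_of_mem (mem_image.2 ⟨o, mem_range.2 k1, k.symm⟩)
    · exact (card_insert_le _ _).trans (Nat.succ_le_succ (card_image_le.trans
        ((card_range _).le.trans h.wf.nd_le)))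

/-- **floor**: in a quiet state all flows and slacks are at least `10 lam` -/
theorem Ok.flo10 (h : X.Ok) (hI : X.I s N) (ha : Arcs X.P.D X.C X.G d N) (hc : Cmb X.G d)
    (hq : Quiet X.P N) : Flo N (10 * X.C.lam) := fun e he => by
  have := (h.shp hI ha hc).floor hq (lam := 10 * X.C.lam) (le_trans ?_ h.lam) he
  · constructor <;> omega
  · have a := h.pb
    have b := h.cb
    change 10 * X.C.lam * (2 * (2 * (5 * X.C.Ph * X.C.Z) + 8 +
      2 * (X.C.Z * (X.G.n + 1) + 1) * (3 * X.G.n + 1 + 1) + X.Bd.cb)) ≤ _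
    have c : X.C.Z * (X.G.n + 1) + 1 ≤ X.Bd.cb := by nlinarith
    calc _ ≤ 10 * X.C.lam * (2 * (2 * X.Bd.pb + 4 * X.Bd.cb +
          2 * X.Bd.cb * (3 * X.G.n + 1 + 1) + X.Bd.cb)) := by gcongr; omega
      _ = X.C.lam * (40 * X.Bd.pb + X.Bd.cb * (120 * X.G.n + 180)) := by ring
      _ ≤ X.C.lam * (1000 * (3 * X.G.n + 4) * X.Bd.pb + X.Bd.cb * (1000 * (3 * X.G.n + 4))) :=
          Nat.mul_le_mul_left _ (Nat.add_le_add (Nat.mul_le_mul_right _ (by omega))
            (Nat.mul_le_mul_left _ (by omega)))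
      _ = _ := by ring

theorem _root_.Crest.Agent.N325.P2.Flo.mono {l l' : ℕ} (h : Flo N l) (k : l' ≤ l) : Flo N l' :=
  fun e he => by have := h e he; constructor <;> omega

theorem Ok.flo (h : X.Ok) (hI : X.I s N) (ha : Arcs X.P.D X.C X.G d N) (hc : Cmb X.G d)
    (hq : Quiet X.P N) : Flo N X.C.lam := (h.flo10 hI ha hc hq).mono (by omega)

theorem Inv.shp (i : X.Inv (s, d) N) (h : X.Ok) : Shp (P2.shp X.C X.G d) X.P X.Bd N :=
  h.shp i.il.1 i.arcs i.cmb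
theorem Inv.flo10 {s : S T} (i : X.Inv s N) (h : X.Ok) (hq : Quiet X.P N) :
    Flo N (10 * X.C.lam) := h.flo10 i.il.1 i.arcs i.cmb hq
theorem Inv.flo {s : S T} (i : X.Inv s N) (h : X.Ok) (hq : Quiet X.P N) : Flo N X.C.lam :=
  h.flo i.il.1 i.arcs i.cmb hq
/-- every flow is below the node capacity -/
theorem Inv.lt_B {s : S T} (i : X.Inv s N) (h : X.Ok) {e : ℕ} (he : e ∈ N.E) :
    0 < N.X e ∧ N.X e < X.C.B :=
  ⟨(h.shp i.il.1 i.arcs i.cmb).pos he, (h.shp i.il.1 i.arcs i.cmb).lt_b he⟩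

end Cx

end Crest.Agent.N325.P2
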