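import Crest.Agent.N325.Mt.Fc3
import Crest.Agent.N325.Dm.Defs
import Crest.Agent.N325.P2.Defs2
import Crest.Agent.N325.P2.Util
import Crest.Agent.N325.Mg.Defs

-- ▼ part N325/Mt/Hall
section

/-!
# Row 325, M6 (helper90): a minimal tight set with an edge is factor-critical (Hall twice)
-/

set_option autoImplicit false
open Finset

namespace Crest.Agent.N325.Mt

variable {E : ℕ → ℕ → Prop} {A C : Finset ℕ} {K H : ℕ → Finset ℕ}

theorem exists_hall (h : ∀ B ⊆ A, #B ≤ #(B.biUnion H)) :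
    ∃ f : ℕ → ℕ, Set.InjOn f A ∧ ∀ a ∈ A, f a ∈ H a := by
  obtain ⟨f, i, k⟩ := (all_card_le_biUnion_card_iff_exists_injective fun a : A => H a).1
    fun s => by
      have := h (s.image Subtype.val) fun x hx => by
        obtain ⟨y, -, rfl⟩ := mem_image.1 hx; exact y.2
      rwa [card_image_of_injective _ Subtype.val_injective, image_biUnion] at this
  refine ⟨fun a => if q : a ∈ A then f ⟨a, q⟩ else 0, fun a ha b hb e => ?_, fun a ha => ?_⟩
  · simp only [dif_pos (mem_coe.1 ha), dif_pos (mem_coe.1 hb)] at e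
    exact congrArg Subtype.val (i e)
  · simp only [dif_pos ha]; exact k ⟨a, ha⟩

/-- factor-critical classes `K c`, single vertices `A`, adjacency `H` backed by real edges -/
structure Bip (E : ℕ → ℕ → Prop) (A C : Finset ℕ) (K H : ℕ → Finset ℕ) : Prop where
  fc : ∀ c ∈ C, FC (K c) E
  dj : ∀ c ∈ C, ∀ c' ∈ C, c ≠ c' → Disjoint (K c) (K c')
  out : ∀ a ∈ A, ∀ c ∈ C, a ∉ K c
  ed : ∀ a ∈ A, ∀ c ∈ C, c ∈ H a → ∃ x ∈ K c, E a x

theorem Bip.sub {A' C' : Finset ℕ} (b : Bip E A C K H) (s : A' ⊆ A) (s' : C' ⊆ C) :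
    Bip E A' C' K H :=
  ⟨fun c k => b.fc c (s' k), fun c k c' k' => b.dj c (s' k) c' (s' k'),
    fun a k c k' => b.out a (s k) c (s' k'), fun a k c k' => b.ed a (s k) c (s' k')⟩

/-- Hall's condition gives a perfect matching of the real vertices -/
theorem Bip.pm (hE : ∀ a b, E a b → E b a) (b : Bip E A C K H) (e : #C ≤ #A)
    (h : ∀ B ⊆ A, #B ≤ #(B.biUnion H ∩ C)) : PM (A ∪ C.biUnion K) E := by
  obtain ⟨f, i, k⟩ := exists_hall (A := A) (H := fun a => H a ∩ C) fun B s => by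
    rw [← biUnion_inter]; exact h B s
  have fc : ∀ a ∈ A, f a ∈ C := fun a ha => (mem_inter.1 (k a ha)).2
  have im : A.image f = C := eq_of_subset_of_card_le (image_subset_iff.2 fc)
    (by rwa [card_image_of_injOn i])
  have := PM.biUnion (E := E) (I := A) (f := fun a => {a} ∪ K (f a)) (fun a ha => by
      obtain ⟨x, hx, ex⟩ := b.ed a ha _ (fc a ha) (mem_inter.1 (k a ha)).1
      exact (FC.single a).pm hE (b.fc _ (fc a ha))
        (disjoint_singleton_left.2 (b.out a ha _ (fc a ha))) (mem_singleton_self a) hx ex)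
    fun a ha a' ha' ne => by
      rw [disjoint_union_left, disjoint_union_right, disjoint_union_right, disjoint_singleton,
        disjoint_singleton_left, disjoint_singleton_right]
      exact ⟨⟨ne, b.out a ha _ (fc a' ha')⟩, b.out a' ha' _ (fc a ha),
        b.dj _ (fc a ha) _ (fc a' ha') fun q => ne (i ha ha' q)⟩
  rwa [biUnion_union, biUnion_singleton_eq_self, ← image_biUnion, im] at this

/-- **the merged class is factor-critical**: every nonempty set of single vertices has surplus,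
no proper subset that sees both `u` and `u'` is tight, and the classes `u`, `u'` are adjacent -/
theorem FC.hall (hE : ∀ a b, E a b → E b a) (b : Bip E A C K H) (hH : ∀ a ∈ A, H a ⊆ C)
    (e : #C = #A + 1) (sp : ∀ B ⊆ A, B.Nonempty → #B + 1 ≤ #(B.biUnion H)) {u u' x y : ℕ}
    (hu : u ∈ C) (hu' : u' ∈ C) (ne : u ≠ u') (hx : x ∈ K u) (hy : y ∈ K u') (ex : E x y)
    (mn : ∀ B ⊆ A, u ∈ B.biUnion H → u' ∈ B.biUnion H → #(B.biUnion H) = #B + 1 → B = A) :
    FC (A ∪ C.biUnion K) E := fun v hv => by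
  have sub : ∀ B ⊆ A, B.biUnion H ⊆ C := fun B s => biUnion_subset.2 fun a k => hH a (s k)
  rcases mem_union.1 hv with k | k
  · have c2 : #((C.erase u).erase u') + 2 = #C := by
      rw [card_erase_of_mem (mem_erase.2 ⟨ne.symm, hu'⟩), card_erase_of_mem hu]
      have := card_pos.2 ⟨v, k⟩; omega
    have s2 : (C.erase u).erase u' ⊆ C := (erase_subset _ _).trans (erase_subset _ _)
    have p := (b.sub (erase_subset v A) s2).pm hE (by rw [card_erase_of_mem k]; omega)
      fun B s => by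
        rcases B.eq_empty_or_nonempty with rfl | n
        · exact Nat.zero_le _
        have s' := s.trans (erase_subset _ _)
        have a1 := sp B s' n
        rw [inter_erase, inter_erase, inter_eq_left.2 (sub B s')]
        by_cases q : u ∈ B.biUnion H
        · by_cases q' : u' ∈ B.biUnion H
          · have : #(B.biUnion H) ≠ #B + 1 := fun z => notMem_erase v A (s (mn B s' q q' z ▸ k))
            rw [card_erase_of_mem (mem_erase.2 ⟨ne.symm, q'⟩), card_erase_of_mem q]; omega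
          · rw [erase_eq_of_notMem fun z => q' (mem_of_mem_erase z), card_erase_of_mem q]; omega
        · rw [erase_eq_of_notMem q]
          have := pred_card_le_card_erase (s := B.biUnion H) (a := u'); omega
    have := p.union ((b.fc u hu).pm hE (b.fc u' hu') (b.dj u hu u' hu' ne) hx hy ex) (by
      refine disjoint_left.2 fun z q q' => ?_
      have : ∀ c ∈ C, c ∉ (C.erase u).erase u' → z ∉ K c := fun c hc n w => by
        rcases mem_union.1 q with q | q
        · exact b.out z (mem_of_mem_erase q) c hc w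
        · obtain ⟨c', r, r'⟩ := mem_biUnion.1 q
          exact disjoint_left.1 (b.dj c hc c' (s2 r) fun z => n (z ▸ r)) w r'
      exact (mem_union.1 q').elim (this u hu (by simp)) (this u' hu' (by simp)))
    convert this using 1
    ext z
    simp only [mem_erase, mem_union, mem_biUnion]
    constructor
    · rintro ⟨n, q | ⟨c, q, q'⟩⟩
      · exact .inl (.inl ⟨n, q⟩)
      · by_cases r : c = u
        · exact .inr (.inl (r ▸ q'))
        · by_cases r' : c = u'
          · exact .inr (.inr (r' ▸ q'))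
          · exact .inl (.inr ⟨c, ⟨r', r, q⟩, q'⟩)
    · rintro ((q | ⟨c, q, q'⟩) | q | q)
      · exact ⟨q.1, .inl q.2⟩
      · exact ⟨fun z => b.out v k c q.2.2 (z ▸ q'), .inr ⟨c, q.2.2, q'⟩⟩
      · exact ⟨fun z => b.out v k u hu (z ▸ q), .inr ⟨u, hu, q⟩⟩
      · exact ⟨fun z => b.out v k u' hu' (z ▸ q), .inr ⟨u', hu', q⟩⟩
  · obtain ⟨c, hc, k⟩ := mem_biUnion.1 k
    have p := (b.sub Subset.rfl (erase_subset c C)).pm hE (by rw [card_erase_of_mem hc]; omega)
      fun B s => by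
        rcases B.eq_empty_or_nonempty with rfl | n
        · exact Nat.zero_le _
        have a1 := sp B s n
        rw [inter_erase, inter_eq_left.2 (sub B s)]
        have := pred_card_le_card_erase (s := B.biUnion H) (a := c); omega
    have := p.union (b.fc c hc v k) (by
      refine disjoint_left.2 fun z q q' => ?_
      rcases mem_union.1 q with q | q
      · exact b.out z q c hc (mem_of_mem_erase q')
      · obtain ⟨c', r, r'⟩ := mem_biUnion.1 q
        exact disjoint_left.1 (b.dj c' (mem_of_mem_erase r) c hc (mem_erase.1 r).1) r'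
          (mem_of_mem_erase q'))
    convert this using 1
    ext z
    simp only [mem_erase, mem_union, mem_biUnion]
    constructor
    · rintro ⟨n, q | ⟨c', q, q'⟩⟩
      · exact .inl (.inl q)
      · by_cases r : c' = c
        · exact .inr ⟨n, r ▸ q'⟩
        · exact .inl (.inr ⟨c', ⟨r, q⟩, q'⟩)
    · rintro ((q | ⟨c', q, q'⟩) | q)
      · exact ⟨fun z => b.out v (z ▸ q) c hc k, .inl q⟩
      · exact ⟨fun z => disjoint_left.1 (b.dj c' q.2 c hc q.1) (z ▸ q') k, .inr ⟨c', q.2, q'⟩⟩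
      · exact ⟨q.1, .inr ⟨c, hc, q.2⟩⟩

end Crest.Agent.N325.Mt
end

-- ▼ part N325/Mt/HallDm
section

/-!
# Row 325 (helper90): a minimal closed region of the edge search is factor-critical
-/

set_option autoImplicit false
open Finset

namespace Crest.Agent.N325.Dm.Bg

open Mt

variable {G : Bg} {Cl : ℕ → Prop} {u u2 d : ℕ} {A C : Finset ℕ}

theorem mt_of_mu {c a : ℕ} (h : G.mu c = some a) : G.mt c = a := by unfold mt; rw [h]

theorem Closed.mu_mt (h : G.Closed Cl u u2 A C d) {c : ℕ} (k : c ∈ C.erase d) :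
    G.mt c ∈ A ∧ G.mu c = some (G.mt c) := by
  obtain ⟨a, x, y⟩ := h.mu c (mem_of_mem_erase k) (mem_erase.1 k).1
  rw [mt_of_mu y]; exact ⟨x, y⟩

theorem Closed.injOn (hG : G.WF Cl) (h : G.Closed Cl u u2 A C d) : Set.InjOn G.mt (C.erase d) :=
  fun c k c' k' e => hG.inj c c' _ (h.cl c (mem_of_mem_erase k)) (h.cl c' (mem_of_mem_erase k'))
    (h.mu_mt k).2 (e ▸ (h.mu_mt k').2)

/-- the inner vertices of a closed region are the mates of its classes other than the base -/
theorem Closed.image_mt (hG : G.WF Cl) (h : G.Closed Cl u u2 A C d) :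
    (C.erase d).image G.mt = A :=
  eq_of_subset_of_card_le (image_subset_iff.2 fun _ k => (h.mu_mt k).1) (by
    rw [card_image_of_injOn (h.injOn hG), card_erase_of_mem h.hd, h.card]; rfl)

theorem Closed.mate (hG : G.WF Cl) (h : G.Closed Cl u u2 A C d) {a : ℕ} (ha : a ∈ A) :
    ∃ c ∈ C, c ≠ d ∧ G.mu c = some a := by
  obtain ⟨c, k, rfl⟩ := mem_image.1 (h.image_mt hG ▸ ha)
  exact ⟨c, mem_of_mem_erase k, (mem_erase.1 k).1, (h.mu_mt k).2⟩

/-- the mate of the base lies outside -/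
theorem Closed.base_out (hG : G.WF Cl) (h : G.Closed Cl u u2 A C d) {a : ℕ} (ha : a ∈ A) :
    G.mu d ≠ some a := fun e =>
  let ⟨c, k, n, e'⟩ := h.mate hG ha
  n (hG.inj c d a (h.cl c k) (h.cl d h.hd) e' e)

/-- **the merged class is factor-critical** -/
theorem Closed.fc {E : ℕ → ℕ → Prop} {K : ℕ → Finset ℕ} {x y : ℕ} (hE : ∀ a b, E a b → E b a)
    (hG : G.WF Cl) (hS : G.Surplus Cl) (h : G.Closed Cl u u2 A C d)
    (mn : ∀ A' C' d', G.Closed Cl u u2 A' C' d' → A' ⊆ A → A' = A) (ne : u ≠ u2)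
    (fc : ∀ c ∈ C, FC (K c) E) (dj : ∀ c ∈ C, ∀ c' ∈ C, c ≠ c' → Disjoint (K c) (K c'))
    (out : ∀ a ∈ A, ∀ c ∈ C, a ∉ K c) (ed : ∀ a ∈ A, ∀ c ∈ C, G.Nb a c → ∃ x ∈ K c, E a x)
    (hx : x ∈ K u) (hy : y ∈ K u2) (e : E x y) : FC (A ∪ C.biUnion K) E := by
  classical
  have mem : ∀ B ⊆ A, ∀ a ∈ B, ∀ c, G.Nb a c → c ∈ B.biUnion fun a => C.filter (G.Nb a) :=
    fun B s a ha c k => mem_biUnion.2 ⟨a, ha, mem_filter.2 ⟨h.nb a (s ha) c k, k⟩⟩
  refine FC.hall (H := fun a => C.filter (G.Nb a)) hE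
    ⟨fc, dj, out, fun a ha c hc k => ed a ha c hc (mem_filter.1 k).2⟩
    (fun _ _ => filter_subset _ _) h.card (fun B s n => hS B _ n (fun a ha => ?_) (mem B s))
    h.hu h.hu2 ne hx hy e fun B s q q' c => ?_
  · obtain ⟨c, k, -, e⟩ := h.mate hG (s ha)
    exact ⟨c, h.cl c k, e⟩
  · set N := B.biUnion fun a => C.filter (G.Nb a)
    have sN : N ⊆ C := biUnion_subset.2 fun _ _ => filter_subset _ _
    have sP : (C.erase d).filter (fun c => G.mt c ∈ B) ⊆ N := fun c k =>
      have k := mem_filter.1 k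
      mem B s _ k.2 c (hG.nb c _ (h.cl c (mem_of_mem_erase k.1)) (h.mu_mt k.1).2)
    have cP : #((C.erase d).filter fun c => G.mt c ∈ B) = #B := by
      rw [← card_image_of_injOn ((h.injOn hG).mono (coe_subset.2 (filter_subset _ _))),
        ← filter_image (p := (· ∈ B)), h.image_mt hG, filter_mem_eq_inter, inter_eq_right.2 s]
    obtain ⟨d', e'⟩ := card_eq_one.1
      (show #(N \ (C.erase d).filter fun c => G.mt c ∈ B) = 1 by
        rw [card_sdiff_of_subset sP]; omega)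
    refine mn B N d' ⟨q, q', fun c k => h.cl c (sN k), mem B s, c,
      (mem_sdiff.1 (e' ▸ mem_singleton_self d')).1, fun c k n => ?_⟩ s
    have : c ∈ (C.erase d).filter fun c => G.mt c ∈ B := by
      by_contra z
      exact n (mem_singleton.1 (e' ▸ mem_sdiff.2 ⟨k, z⟩))
    exact ⟨_, (mem_filter.1 this).2, (h.mu_mt (mem_filter.1 this).1).2⟩

end Crest.Agent.N325.Dm.Bg
end

-- ▼ part N325/P2/Clo

/-!
# Row 325, part II (helper90): a minimal closed region of the edge search can be merged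
-/

set_option autoImplicit false
open Finset

namespace Crest.Agent.N325.P2

open Crest.Agent.N325.Mt Crest.Agent.N325.Bf Crest.Agent.N325.Dm

variable {G : Gf} {d : Dt} {B : Bg} {o b : ℕ} {AX CX : List ℕ}

/-- `B` is the bipartite graph of the state -/
structure IsBg (G : Gf) (d : Dt) (B : Bg) : Prop where
  mu : ∀ c, isC G d c → ∀ a, B.mu c = some a ↔ d.mt.get (d.bs.get c) = a ∧ a ≠ d.bs.get c
  nb : ∀ a < G.n, d.st.get a = 1 → ∀ c, B.Nb a c ↔ c = d.cls.get (d.mt.get a) ∨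
    ∃ o < G.nd, G.hd o = a ∧ d.pr.get o = true ∧ d.cls.get (G.tl.get o) = c

theorem Cmb.bs_lt (h : Cmb G d) {c : ℕ} (k : isC G d c) : d.bs.get c < G.n ∧
    d.st.get (d.bs.get c) = 2 ∧ d.cls.get (d.bs.get c) = c := (h.mem c k _).1 (h.bs c k).1

/-- the mate of a class is an inner vertex -/
theorem IsBg.inner (h : Cmb G d) (i : IsBg G d B) {c a : ℕ} (k : isC G d c) (e : B.mu c = some a) :
    a < G.n ∧ d.st.get a = 1 ∧ d.mt.get a = d.bs.get c ∧ d.cls.get (d.mt.get a) = c := by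
  obtain ⟨rfl, n⟩ := (i.mu c k a).1 e
  have l := mem_range.2 (h.bs_lt k).1
  have := h.isM.inv l
  exact ⟨mem_range.1 (h.isM.mem l), (h.bs c k).2.resolve_left n, this, by
    rw [this, (h.bs_lt k).2.2]⟩

/-- an inner vertex is the mate of the class of its mate -/
theorem IsBg.mu_cls (h : Cmb G d) (i : IsBg G d B) {a : ℕ} (l : a < G.n) (k : d.st.get a = 1) :
    isC G d (d.cls.get (d.mt.get a)) ∧ B.mu (d.cls.get (d.mt.get a)) = some a := by
  obtain ⟨x, y⟩ := h.inn a l k
  have c := h.out _ (mem_range.1 (h.isM.mem (mem_range.2 l))) x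
  refine ⟨c, (i.mu _ c a).2 ⟨by rw [y, h.isM.inv (mem_range.2 l)], fun e => ?_⟩⟩
  rw [y] at e; rw [← e, k] at x; omega

/-- a neighbour class contains a neighbour -/
theorem IsBg.real (hG : G.WF) (h : Cmb G d) (i : IsBg G d B) {a c : ℕ} (l : a < G.n)
    (k : d.st.get a = 1) (e : B.Nb a c) : isC G d c ∧ ∃ x ∈ d.mem.get c, G.E a x := by
  rcases (i.nb a l k c).1 e with rfl | ⟨o, lo, rfl, p, rfl⟩
  · have c := (i.mu_cls h l k).1
    obtain ⟨x, y⟩ := h.inn a l k
    refine ⟨c, _, (h.mem _ c _).2 ⟨h.mt_lt l, x, rfl⟩, h.isM.adj (mem_range.2 l) fun e => ?_⟩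
    rw [e, k] at x; omega
  · have s := (h.pr o lo p).1
    have c := h.out _ (hG.tl_lt o lo) s
    exact ⟨c, _, (h.mem _ c _).2 ⟨hG.tl_lt o lo, s, rfl⟩, hG.symm _ _ ⟨o, lo, rfl, rfl⟩⟩

theorem IsBg.wf (hG : G.WF) (h : Cmb G d) (i : IsBg G d B) : B.WF (isC G d) :=
  ⟨fun _ _ _ k k' e e' => (i.inner h k e).2.2.2.symm.trans (i.inner h k' e').2.2.2,
    fun c a k e => let ⟨x, y, _, z⟩ := i.inner h k e; (i.nb a x y c).2 (.inl z.symm),
    fun _ _ k ⟨_, e, n⟩ => let ⟨x, y, _⟩ := i.inner h k e; (i.real hG h x y n).1⟩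

/-- **a minimal closed region can be merged** -/
theorem IsBg.mgb (hG : G.WF) (h : Cmb G d) (i : IsBg G d B) (hS : B.Surplus (isC G d))
    (lo : o < G.nd) (nd : ¬Done G d o) (s2 : d.st.get (G.hd o) = 2) (nA : AX.Nodup)
    (nC : CX.Nodup) (k : B.Closed (isC G d) (d.cls.get (G.tl.get o)) (d.cls.get (G.hd o))
      AX.toFinset CX.toFinset b)
    (mn : ∀ A' ⊆ AX.toFinset, ∀ C' b', B.Closed (isC G d) (d.cls.get (G.tl.get o))
      (d.cls.get (G.hd o)) A' C' b' → A' = AX.toFinset) : Mgb G d o AX CX b := by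
  have w := i.wf hG h
  simp only [Done, not_or, not_not, not_and] at nd
  have mate : ∀ a ∈ AX.toFinset, a < G.n ∧ d.st.get a = 1 ∧ d.cls.get (d.mt.get a) ∈ CX ∧
      d.cls.get (d.mt.get a) ≠ b := fun a ha => by
    obtain ⟨c, x, y, e⟩ := k.mate w ha
    obtain ⟨p, q, -, r⟩ := i.inner h (k.cl c x) e
    rw [r]; exact ⟨p, q, List.mem_toFinset.1 x, y⟩
  have lh : G.hd o < G.n := hG.tl_lt _ (hG.rv_lt lo)
  refine ⟨nA, nC, ?_, fun a ha => mate a (List.mem_toFinset.2 ha), fun o' l p ha => ?_,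
    fun c hc => ⟨k.cl c (List.mem_toFinset.2 hc), fun n => ?_⟩, List.mem_toFinset.1 k.hd,
    ⟨nd.1, List.mem_toFinset.1 k.hu⟩, ⟨s2, List.mem_toFinset.1 k.hu2⟩,
    k.fc (x := G.tl.get o) (y := G.hd o) hG.symm w hS (fun A' C' b' q s => mn A' s C' b' q)
      (fun e => nd.2.2.2 s2 e.symm)
      (fun c hc => h.fc c (k.cl c hc)) (fun c hc c' hc' n => ?_) (fun a ha c hc q => ?_)
      (fun a ha c _ q => ?_) ?_ ?_ ⟨o, lo, rfl, rfl⟩⟩
  · rw [← List.toFinset_card_of_nodup nA, ← List.toFinset_card_of_nodup nC, k.card]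
  · have ha := List.mem_toFinset.2 ha
    exact List.mem_toFinset.1 (k.nb _ ha _ ((i.nb _ (mate _ ha).1 (mate _ ha).2.1 _).2
      (.inr ⟨o', l, rfl, p, rfl⟩)))
  · obtain ⟨a, x, e⟩ := k.mu c (List.mem_toFinset.2 hc) n
    rw [((i.mu c (k.cl c (List.mem_toFinset.2 hc)) a).1 e).1]; exact List.mem_toFinset.1 x
  · exact disjoint_left.2 fun v x y => n
      (((h.mem c (k.cl c hc) v).1 (List.mem_toFinset.1 x)).2.2.symm.trans
        ((h.mem c' (k.cl c' hc') v).1 (List.mem_toFinset.1 y)).2.2)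
  · have := ((h.mem c (k.cl c hc) a).1 (List.mem_toFinset.1 q)).2.1
    have := (mate a ha).2.1; omega
  · simpa using (i.real hG h (mate a ha).1 (mate a ha).2.1 q).2
  · exact List.mem_toFinset.2 ((h.mem _ (k.cl _ k.hu) _).2 ⟨hG.tl_lt o lo, nd.1, rfl⟩)
  · exact List.mem_toFinset.2 ((h.mem _ (k.cl _ k.hu2) _).2 ⟨lh, s2, rfl⟩)

theorem isBg_bgOf (hG : G.WF) (h : Cmb G d) : IsBg G d (bgOf G d) := by
  refine ⟨fun c _ a => ?_, fun a l k c => ⟨?_, ?_⟩⟩
  · simp only [bgOf]
    split_ifs with q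
    · simp only [false_iff, not_and, not_not, reduceCtorEq]
      exact fun e => e.symm.trans q
    · simp only [Option.some.injEq]
      exact ⟨fun e => ⟨e, e ▸ q⟩, fun e => e.1⟩
  · rintro ⟨e, x, y, rfl⟩
    have x := (hG.mem a l e).1 x
    simp only [bgOf, Bool.or_eq_true, decide_eq_true_eq] at y ⊢
    rcases y with y | y
    · exact .inr ⟨rv e, hG.rv_lt x.1, (G.hd_rv e).trans x.2, y, rfl⟩
    · exact .inl (by rw [y])
  · rintro (rfl | ⟨o, lo, rfl, p, rfl⟩)
    · obtain ⟨e, x, y, z⟩ := h.isM.adj (mem_range.2 l) fun e => by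
        have := (h.inn a l k).1; rw [e, k] at this; omega
      exact ⟨e, (hG.mem a l e).2 ⟨x, y⟩, by simp [bgOf, z], by simp [bgOf, z]⟩
    · exact ⟨rv o, (hG.mem _ l _).2 ⟨hG.rv_lt lo, rfl⟩, by simp [bgOf, p], by simp [bgOf]⟩

theorem wf_bgOf (hG : G.WF) (h : Cmb G d) : (bgOf G d).WF (isC G d) := (isBg_bgOf hG h).wf hG h

/-- **the hypotheses of MERGE from the result of the edge search** -/
theorem mgb_of_closed (hG : G.WF) (h : Cmb G d) (hS : (bgOf G d).Surplus (isC G d))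
    (lo : o < G.nd) (nd : ¬Done G d o) (s2 : d.st.get (G.hd o) = 2) (nA : AX.Nodup)
    (nC : CX.Nodup) (k : (bgOf G d).Closed (isC G d) (d.cls.get (G.tl.get o))
      (d.cls.get (G.hd o)) AX.toFinset CX.toFinset b)
    (mn : ∀ A' ⊆ AX.toFinset, ∀ C' b', (bgOf G d).Closed (isC G d) (d.cls.get (G.tl.get o))
      (d.cls.get (G.hd o)) A' C' b' → A' = AX.toFinset) : Mgb G d o AX CX b :=
  (isBg_bgOf hG h).mgb hG h hS lo nd s2 nA nC k mn

/-- the two ends of an undone dart between outer vertices lie in different classes -/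
theorem ends_of_not_done (hG : G.WF) (h : Cmb G d) (lo : o < G.nd) (nd : ¬Done G d o)
    (s2 : d.st.get (G.hd o) = 2) : d.st.get (G.tl.get o) = 2 ∧ isC G d (d.cls.get (G.tl.get o)) ∧
      isC G d (d.cls.get (G.hd o)) ∧ d.cls.get (G.tl.get o) ≠ d.cls.get (G.hd o) := by
  simp only [Done, not_or, not_not, not_and] at nd
  exact ⟨nd.1, h.out _ (hG.tl_lt o lo) nd.1, h.out _ (hG.hd_lt lo) s2,
    fun e => nd.2.2.2 s2 e.symm⟩

end Crest.Agent.N325.P2
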