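import Crest.Agent.N325.P2.Drop
import Crest.Agent.N325.P2.Dual
import Crest.Agent.N325.Lb.Bar

-- ▼ part N325/P2/DropF1
section

/-!
# Row 325, part II (helper73): DROP — the new flows form a circulation
-/

set_option autoImplicit false
open Finset

namespace Crest.Agent.N325.P2

open Crest.Agent.N325.Tw Crest.Agent.N325.Ip Crest.Agent.N325.Mt Crest.Agent.N325.Bf

/-- ids of the arcs at the touched vertices -/
def Fr (W : List ℕ) (e : ℕ) : Prop := e % 5 ≠ 0 ∧ e / 5 ∈ W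
instance (W : List ℕ) (e : ℕ) : Decidable (Fr W e) := inferInstanceAs (Decidable (_ ∧ _))

/-- plain arcs with a touched tail -/
def dJ1 (G : Gf) (d : Dt) (W : List ℕ) : Finset ℕ :=
  (range G.nd).filter fun o => d.pr.get o = true ∧ G.tl.get o ∈ W
/-- plain arcs with a touched head -/
def dJ2 (G : Gf) (d : Dt) (W : List ℕ) : Finset ℕ :=
  (range G.nd).filter fun o => d.pr.get o = true ∧ G.hd o ∈ W
/-- the flow that is added on an arc -/
def adX (G : Gf) (d : Dt) (W : List ℕ) (N : Net) (e : ℕ) : ℤ :=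
  ∑ o ∈ dJ1 G d W with 5 * G.hd o + 3 = e, N.X (5 * o) +
    ∑ o ∈ dJ2 G d W with 5 * d.cls.get (G.tl.get o) + 2 = e, N.X (5 * o)
/-- the new flows -/
def nX (D : ℕ) (C : Cf) (G : Gf) (d : Dt) (W : List ℕ) (N : Net) (e : ℕ) : ℤ :=
  if Fr W e then (if e % 5 ≤ 2 then D else C.lam) else N.X e + adX G d W N e

/-- the new network -/
structure DrN (D : ℕ) (C : Cf) (G : Gf) (d d' : Dt) (W : List ℕ) (N N' : Net) : Prop where
  mem : ∀ e, e ∈ N'.E ↔ has G d' e
  arc : ∀ e ∈ N'.E, N'.arc e = arcOf D C G d' e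
  X : ∀ e ∈ N'.E, N'.X e = nX D C G d W N e

variable {D : ℕ} {C : Cf} {G : Gf} {d d' : Dt} {W : List ℕ} {N N' : Net} {e o v : ℕ}

theorem mem_dJ1 : o ∈ dJ1 G d W ↔ o < G.nd ∧ d.pr.get o = true ∧ G.tl.get o ∈ W := by
  rw [dJ1, mem_filter, mem_range]
theorem mem_dJ2 : o ∈ dJ2 G d W ↔ o < G.nd ∧ d.pr.get o = true ∧ G.hd o ∈ W := by
  rw [dJ2, mem_filter, mem_range]
theorem fr0 : ¬Fr W (5 * v) := fun k => k.1 (by omega)
theorem fr_add {j : ℕ} (h : 0 < j) (h' : j < 5) : Fr W (5 * v + j) ↔ v ∈ W := by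
  rw [Fr, show (5 * v + j) / 5 = v by omega]; exact and_iff_right (by omega)

/-- arcs that are kept -/
theorem Drp.kept (p : Drp G d W d') (w : Wk G d W) (hG : G.WF) (h : Cmb G d) (k : ¬Fr W e) :
    (has G d' e ↔ has G d e ∧ ¬(e % 5 = 0 ∧ (G.tl.get (e / 5) ∈ W ∨ G.hd (e / 5) ∈ W))) ∧
      (has G d' e → arcOf D C G d' e = arcOf D C G d e ∧ ∀ z : ℕ → ℤ,
        (if (arcOf D C G d e).b - 1 ∈ W then z 0 else z (arcOf D C G d e).b) -
          (if (arcOf D C G d e).a - 1 ∈ W then z 0 else z (arcOf D C G d e).a) =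
            z (arcOf D C G d e).b - z (arcOf D C G d e).a) := by
  obtain ⟨i, rfl | rfl | rfl | rfl | rfl⟩ := id_cases e
  · rw [has0, has0, arcOf0, arcOf0, show 5 * i / 5 = i by omega]
    refine ⟨?_, fun ⟨a, b⟩ => ?_⟩
    · by_cases a : i < G.nd
      · simp [p.pr i a, a]
      · simp [a]
    · obtain ⟨b1, b2, b3⟩ := (p.pr i a).1 b
      have := _root_.mt (w.out _ (hG.tl_lt i a) (h.pr i a b1).1).2 b2
      simp [aP, capA, p.cls, b2, b3, this]
  all_goals rw [fr_add (by omega) (by omega)] at k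
  · rw [has1, has1, arcOf1, arcOf1, p.st, p.mt, if_neg k]
    refine ⟨by simp [Nat.add_mod], fun ⟨a, b⟩ => ?_⟩
    have c := w.mt_not h a k
    have c' := _root_.mt (w.out _ (h.mt_lt a) (b.elim (fun b => (h.inn i a b).1)
      fun b => by rw [b]; exact h.root_st a b)).2 c
    refine ⟨by rw [aE, aE, p.mt, p.cls, if_neg c], fun z => ?_⟩
    by_cases r : d.mt.get i = i
    · simp only [aE, capA, if_pos r, Nat.add_sub_cancel, c', if_false, ite_self]
    · simp only [aE, capA, if_neg r, Nat.add_sub_cancel, c', k, if_false]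
  · rw [has2, has2, arcOf2, arcOf2, p.isC_iff w, p.cw, if_neg k]
    exact ⟨by simp [k, Nat.add_mod], fun _ => by simp [snkA, k]⟩
  · rw [has3, has3, arcOf3, arcOf3, p.st, if_neg k]
    exact ⟨by simp [Nat.add_mod], fun _ => by simp [aG, k]⟩
  · rw [has4, has4, arcOf4, arcOf4, p.st, if_neg k]
    exact ⟨by simp [Nat.add_mod], fun _ => by simp [aU, k]⟩

/-- arcs that become loops -/
theorem Wk.loop (w : Wk G d W) (h : Cmb G d) (k : Fr W e) (a : has G d e) (z : ℕ → ℤ) :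
    (if (arcOf D C G d e).b - 1 ∈ W then z 0 else z (arcOf D C G d e).b) -
      (if (arcOf D C G d e).a - 1 ∈ W then z 0 else z (arcOf D C G d e).a) = 0 := by
  obtain ⟨i, rfl | rfl | rfl | rfl | rfl⟩ := id_cases e
  · exact absurd k fr0
  all_goals rw [fr_add (by omega) (by omega)] at k
  · obtain ⟨a, b⟩ := has1.1 a
    have c := (w.out _ (h.mt_lt a) (b.elim (fun b => (h.inn i a b).1)
      fun b => by rw [b]; exact h.root_st a b)).1 (w.mt_mem h k)
    rw [arcOf1]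
    by_cases r : d.mt.get i = i
    · simp only [aE, capA, if_pos r, Nat.add_sub_cancel, c, if_true, ite_self, sub_self]
    · simp only [aE, capA, if_neg r, Nat.add_sub_cancel, c, k, if_true, sub_self]
  · simp [arcOf2, snkA, k]
  · simp [arcOf3, aG, k]
  · simp [arcOf4, aU, k]

/-- the ghost that takes over a plain arc -/
theorem DrN.tg1 (n : DrN D C G d d' W N N') (p : Drp G d W d') (hG : G.WF) (h : Cmb G d)
    (a : o < G.nd) (b : d.pr.get o = true) :
    (5 * G.hd o + 3 ∈ N'.E.filter (¬Fr W ·) ↔ G.hd o ∉ W) ∧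
      (G.hd o ∉ W → N'.arc (5 * G.hd o + 3) = aG C (G.hd o)) := by
  have k : G.hd o ∉ W → 5 * G.hd o + 3 ∈ N'.E := fun k => (n.mem _).2
    (has3.2 ⟨hG.hd_lt a, by rw [p.st, if_neg k]; exact (h.pr o a b).2.1⟩)
  rw [mem_filter, fr_add (by omega) (by omega)]
  exact ⟨and_iff_right_of_imp k, fun c => by rw [n.arc _ (k c), arcOf3]⟩

/-- the sink that takes over a plain arc -/
theorem DrN.tg2 (n : DrN D C G d d' W N N') (p : Drp G d W d') (w : Wk G d W) (hG : G.WF)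
    (h : Cmb G d) (a : o < G.nd) (b : d.pr.get o = true) :
    (5 * d.cls.get (G.tl.get o) + 2 ∈ N'.E.filter (¬Fr W ·) ↔ G.tl.get o ∉ W) ∧
      (G.tl.get o ∉ W → ∃ x, N'.arc (5 * d.cls.get (G.tl.get o) + 2) =
        snkA C (d.cls.get (G.tl.get o)) x) := by
  have s := (h.pr o a b).1
  have e := w.out _ (hG.tl_lt o a) s
  have k : G.tl.get o ∉ W → 5 * d.cls.get (G.tl.get o) + 2 ∈ N'.E := fun k => (n.mem _).2
    (has2.2 ((p.isC_iff w).2 (.inr ⟨mt e.2 k, h.out _ (hG.tl_lt o a) s⟩)))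
  rw [mem_filter, fr_add (by omega) (by omega), ← e]
  exact ⟨and_iff_right_of_imp k, fun c => ⟨_, by rw [n.arc _ (k c), arcOf2]⟩⟩

/-- the new arcs -/
theorem Drp.fresh (p : Drp G d W d') (w : Wk G d W) (k : v ∈ W) :
    (has G d' (5 * v + 1) ↔ d.mt.get v = v) ∧ (has G d' (5 * v + 2) ↔ d.mt.get v = v) ∧
      (has G d' (5 * v + 3) ↔ d.mt.get v ≠ v) ∧ (has G d' (5 * v + 4) ↔ d.mt.get v ≠ v) := by
  have := (w.lt v k).1
  rw [has1, has2, has3, has4, p.isC_iff w, p.st, p.mt]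
  by_cases r : d.mt.get v = v <;> simp [k, r, this]

theorem DrN.sum_fresh {M : Type} [AddCommMonoid M] (n : DrN D C G d d' W N N') (p : Drp G d W d')
    (w : Wk G d W) (f : Arc → ℤ → M) : ∑ e ∈ N'.E with Fr W e, f (N'.arc e) (N'.X e) =
      ∑ v ∈ W.toFinset, if d.mt.get v = v then f (capA 0 (v + 1) C.B) D + f (snkA C v 2) D
        else f (aG C v) C.lam + f (aU D C v) C.lam := by
  rw [← sum_fiberwise_of_maps_to (g := (· / 5)) (t := W.toFinset)
    fun e he => List.mem_toFinset.2 (mem_filter.1 he).2.2]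
  refine sum_congr rfl fun v hv => ?_
  have k := List.mem_toFinset.1 hv
  obtain ⟨a1, a2, a3, a4⟩ := p.fresh w k
  have e : ∀ j, 0 < j → j < 5 → has G d' (5 * v + j) → f (N'.arc (5 * v + j)) (N'.X (5 * v + j)) =
      f (arcOf D C G d' (5 * v + j)) (if j ≤ 2 then D else C.lam) := fun j a b c => by
    rw [n.arc _ ((n.mem _).2 c), n.X _ ((n.mem _).2 c), nX, if_pos ((fr_add a b).2 k),
      show (5 * v + j) % 5 = j by omega]
  have m : ∀ i, i ∈ (N'.E.filter (Fr W ·)).filter (· / 5 = v) ↔ has G d' i ∧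
      (i = 5 * v + 1 ∨ i = 5 * v + 2 ∨ i = 5 * v + 3 ∨ i = 5 * v + 4) := fun i => by
    rw [mem_filter, mem_filter, n.mem, and_assoc, Fr]
    exact and_congr_right fun _ => ⟨fun c => by omega, fun c =>
      ⟨⟨by omega, by rw [show i / 5 = v by omega]; exact k⟩, by omega⟩⟩
  split_ifs with r
  · rw [show (N'.E.filter (Fr W ·)).filter (· / 5 = v) = {5 * v + 1, 5 * v + 2} from ext fun i => by
      rw [m, mem_insert, mem_singleton]
      refine ⟨?_, ?_⟩
      · rintro ⟨c, rfl | rfl | rfl | rfl⟩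
        exacts [.inl rfl, .inr rfl, absurd r (a3.1 c), absurd r (a4.1 c)]
      · rintro (rfl | rfl)
        exacts [⟨a1.2 r, .inl rfl⟩, ⟨a2.2 r, .inr (.inl rfl)⟩], sum_pair (by omega),
      e 1 (by omega) (by omega) (a1.2 r), e 2 (by omega) (by omega) (a2.2 r), arcOf1, arcOf2, aE,
      p.mt, r, p.cls, p.cw]
    simp [k]
  · rw [show (N'.E.filter (Fr W ·)).filter (· / 5 = v) = {5 * v + 3, 5 * v + 4} from ext fun i => by
      rw [m, mem_insert, mem_singleton]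
      refine ⟨?_, ?_⟩
      · rintro ⟨c, rfl | rfl | rfl | rfl⟩
        exacts [absurd (a1.1 c) r, absurd (a2.1 c) r, .inl rfl, .inr rfl]
      · rintro (rfl | rfl)
        exacts [⟨a3.2 r, by omega⟩, ⟨a4.2 r, by omega⟩], sum_pair (by omega),
      e 3 (by omega) (by omega) (a3.2 r), e 4 (by omega) (by omega) (a4.2 r), arcOf3, arcOf4]
    simp

theorem sum_fib {K : Type} [CommRing K] (S J : Finset ℕ) (τ : ℕ → ℕ) (y : ℕ → ℤ) (c : ℕ → K) :
    ∑ e ∈ S, ((∑ o ∈ J with τ o = e, y o : ℤ) : K) * c e =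
      ∑ o ∈ J, if τ o ∈ S then (y o : K) * c (τ o) else 0 := by
  rw [← sum_filter, ← sum_fiberwise_eq_sum_filter]
  refine sum_congr rfl fun e _ => ?_
  rw [Int.cast_sum, sum_mul]
  exact sum_congr rfl fun o ho => by rw [(mem_filter.1 ho).2]

/-- the kept arcs -/
theorem DrN.keep (n : DrN D C G d d' W N N') (p : Drp G d W d') (w : Wk G d W) (hG : G.WF)
    (h : Cmb G d) (a : Arcs D C G d N) (he : e ∈ N'.E.filter (¬Fr W ·)) :
    e ∈ N.E ∧ N'.arc e = N.arc e ∧ N'.X e = N.X e + adX G d W N e := by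
  obtain ⟨b, c⟩ := mem_filter.1 he
  obtain ⟨k1, k2⟩ := p.kept (D := D) (C := C) w hG h c
  have m := (a.mem e).2 (k1.1 ((n.mem e).1 b)).1
  exact ⟨m, by rw [n.arc e b, (k2 ((n.mem e).1 b)).1, a.arc e m], by rw [n.X e b, nX, if_neg c]⟩

/-- **the new flows form a circulation** -/
theorem DrN.circ (n : DrN D C G d d' W N N') (p : Drp G d W d') (w : Wk G d W) (hG : G.WF)
    (h : Cmb G d) (a : Arcs D C G d N) : N'.Circ N'.X := fun z => by
  have c := a.circ fun u => if u - 1 ∈ W then z 0 else z u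
  set F : ℕ → ℤ := fun e => N.X e * ((if (N.arc e).b - 1 ∈ W then z 0 else z (N.arc e).b) -
    if (N.arc e).a - 1 ∈ W then z 0 else z (N.arc e).a) with hF
  have pl : ∀ o < G.nd, d.pr.get o = true → F (5 * o) = N.X (5 * o) *
      ((if G.hd o ∈ W then z 0 else z (G.hd o + 1)) -
        if G.tl.get o ∈ W then z 0 else z (d.cls.get (G.tl.get o) + 1)) := fun o b1 b2 => by
    simp only [hF, (a.plain b1 b2).2, aP, capA, Nat.add_sub_cancel,
      ← w.out _ (hG.tl_lt o b1) (h.pr o b1 b2).1]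
  have s1 : ∑ e ∈ N.E, F e = ∑ e ∈ N'.E with ¬Fr W e, F e +
      ∑ o ∈ dJ1 G d W ∪ dJ2 G d W, F (5 * o) := by
    rw [← sum_image (g := (5 * ·)) fun _ _ _ _ k => by simpa using k, ← sum_union]
    · refine (sum_subset (union_subset (fun e he => (n.keep p w hG h a he).1) fun e he => ?_)
        fun e he k => ?_).symm
      · obtain ⟨o, b, rfl⟩ := mem_image.1 he
        rw [mem_union, mem_dJ1, mem_dJ2] at b
        exact b.elim (fun b => (a.plain b.1 b.2.1).1) fun b => (a.plain b.1 b.2.1).1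
      · have g := (a.mem e).1 he
        rw [mem_union, not_or, mem_filter, n.mem] at k
        by_cases f : Fr W e
        · simp only [hF, a.arc e he, w.loop h f g z, mul_zero]
        · have := mt (p.kept (D := D) (C := C) w hG h f).1.2 fun q => k.1 ⟨q, f⟩
          obtain ⟨q1, q2⟩ := of_not_not (mt (And.intro g) this)
          obtain ⟨o, rfl⟩ : ∃ o, e = 5 * o := ⟨e / 5, by omega⟩
          rw [show 5 * o / 5 = o by omega] at q2
          obtain ⟨g1, g2⟩ := has0.1 g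
          exact absurd (mem_image_of_mem _ (mem_union.2 (q2.imp
            (fun q => mem_dJ1.2 ⟨g1, g2, q⟩) fun q => mem_dJ2.2 ⟨g1, g2, q⟩))) k.2
    · refine disjoint_left.2 fun e he k => ?_
      obtain ⟨o, b, rfl⟩ := mem_image.1 k
      have := (has0.1 ((n.mem _).1 (mem_filter.1 he).1))
      have := (p.pr o this.1).1 this.2
      rw [mem_union, mem_dJ1, mem_dJ2] at b
      exact b.elim (fun b => this.2.1 b.2.2) fun b => this.2.2 b.2.2
  have s2 := sum_union_inter (s₁ := dJ1 G d W) (s₂ := dJ2 G d W) (f := fun o => F (5 * o))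
  rw [sum_eq_zero (s := _ ∩ _) fun o ho => by
    obtain ⟨b1, b2⟩ := mem_inter.1 ho
    rw [mem_dJ1] at b1
    rw [pl o b1.1 b1.2.1, if_pos b1.2.2, if_pos (mem_dJ2.1 b2).2.2, sub_self, mul_zero],
    add_zero] at s2
  rw [← sum_filter_add_sum_filter_not _ (Fr W ·),
    n.sum_fresh p w fun A x => x * (z A.b - z A.a), sum_eq_zero fun v _ => by
      simp only [capA, snkA, aG, aU]; split_ifs <;> ring, zero_add, ← c, s1, s2, ← add_assoc]
  have t1 := sum_fib (N'.E.filter (¬Fr W ·)) (dJ1 G d W) (fun o => 5 * G.hd o + 3)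
    (fun o => N.X (5 * o)) fun e => z (N'.arc e).b - z (N'.arc e).a
  have t2 := sum_fib (N'.E.filter (¬Fr W ·)) (dJ2 G d W) (fun o => 5 * d.cls.get (G.tl.get o) + 2)
    (fun o => N.X (5 * o)) fun e => z (N'.arc e).b - z (N'.arc e).a
  rw [← sum_congr rfl fun o ho => (?_ : _ = F (5 * o)), ← t1,
    ← sum_congr rfl fun o ho => (?_ : _ = F (5 * o)), ← t2, ← sum_add_distrib, ← sum_add_distrib]
  · refine sum_congr rfl fun e he => ?_
    obtain ⟨b1, b2, b3⟩ := n.keep p w hG h a he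
    obtain ⟨b4, b5⟩ := mem_filter.1 he
    simp only [hF, b2, b3, adX, a.arc e b1,
      ((p.kept (D := D) (C := C) w hG h b5).2 ((n.mem e).1 b4)).2 z, Int.cast_id]
    ring
  · rw [mem_dJ2] at ho
    obtain ⟨k1, k2⟩ := n.tg2 p w hG h ho.1 ho.2.1
    rw [pl o ho.1 ho.2.1, if_pos ho.2.2]
    by_cases q : G.tl.get o ∈ W
    · rw [if_neg (mt k1.1 (not_not.2 q)), if_pos q, sub_self, mul_zero]
    · obtain ⟨x, k⟩ := k2 q
      rw [if_pos (k1.2 q), if_neg q, k]; rfl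
  · rw [mem_dJ1] at ho
    obtain ⟨k1, k2⟩ := n.tg1 p hG h ho.1 ho.2.1
    rw [pl o ho.1 ho.2.1, if_pos ho.2.2]
    by_cases q : G.hd o ∈ W
    · rw [if_neg (mt k1.1 (not_not.2 q)), if_pos q, sub_self, mul_zero]
    · rw [if_pos (k1.2 q), if_neg q, k2 q]; rfl

end Crest.Agent.N325.P2
end

-- ▼ part N325/P2/DropF2

/-!
# Row 325, part II (helper73): DROP — bounds on the new flows, the barrier
-/

set_option autoImplicit false
open Finset

namespace Crest.Agent.N325.P2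

open Crest.Agent.N325.Tw Crest.Agent.N325.Ip Crest.Agent.N325.Mt Crest.Agent.N325.Bf
  Crest.Agent.N325.Lb

theorem adX_ne {D : ℕ} {C : Cf} {G : Gf} {d d' : Dt} {W : List ℕ} {N : Net} {e : ℕ}
    (k : adX G d W N e ≠ 0) : (arcOf D C G d' e).o3 = C.M ∧ (arcOf D C G d' e).c3 = 1 := by
  by_contra c
  refine k ?_
  rw [adX, sum_eq_zero, sum_eq_zero, add_zero] <;> intro o ho <;> refine absurd ?_ c <;>
    rw [← (mem_filter.1 ho).2]
  · rw [arcOf2]; exact ⟨rfl, rfl⟩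
  · rw [arcOf3]; exact ⟨rfl, rfl⟩

namespace Cx
variable {T : Type} {X : Cx T} {s : St T} {d d' : Dt} {W Y : List ℕ} {N N' : Net} {e v : ℕ}

theorem Inv.sumJ (i : X.Inv (s, d) N) (h : X.Ok) {J : Finset ℕ}
    (hJ : ∀ o ∈ J, o < X.G.nd ∧ d.pr.get o = true) :
    0 ≤ ∑ o ∈ J, N.X (5 * o) ∧ ∑ o ∈ J, N.X (5 * o) ≤ 3 * X.G.n * X.C.B := by
  have k := fun o ho => i.lt_B h (i.arcs.plain (hJ o ho).1 (hJ o ho).2).1
  refine ⟨sum_nonneg fun o ho => (k o ho).1.le, (sum_le_card_nsmul _ _ _ fun o ho =>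
    (k o ho).2.le).trans ?_⟩
  have : #J ≤ 3 * X.G.n := (card_le_card fun o ho => mem_range.2 (hJ o ho).1).trans
    ((card_range _).le.trans h.wf.nd_le)
  rw [nsmul_eq_mul]
  exact mul_le_mul_of_nonneg_right (by exact_mod_cast this) (by positivity)

theorem Ok.nB_le (h : X.Ok) : 100 * ((X.G.n : ℤ) * X.C.B + X.C.B + X.P.D) ≤ X.C.M := by
  have : (100 * (X.G.n + 1) * (X.C.B + X.P.D) : ℤ) ≤ X.C.M := by exact_mod_cast h.M
  nlinarith [mul_nonneg (Int.natCast_nonneg X.G.n) (Int.natCast_nonneg X.P.D)]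

theorem Inv.adX_bd (i : X.Inv (s, d) N) (h : X.Ok) (e : ℕ) :
    0 ≤ adX X.G d W N e ∧ adX X.G d W N e ≤ 6 * (X.G.n * X.C.B) := by
  have a := i.sumJ h (J := (dJ1 X.G d W).filter fun o => 5 * X.G.hd o + 3 = e) fun o ho =>
    have := mem_dJ1.1 (mem_filter.1 ho).1; ⟨this.1, this.2.1⟩
  have b := i.sumJ h (J := (dJ2 X.G d W).filter fun o => 5 * d.cls.get (X.G.tl.get o) + 2 = e)
    fun o ho => have := mem_dJ2.1 (mem_filter.1 ho).1; ⟨this.1, this.2.1⟩
  unfold adX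
  constructor <;> linarith [a.1, a.2, b.1, b.2]

/-- the new flows are above the floor -/
theorem Inv.flo_nX (i : X.Inv (s, d) N) (h : X.Ok) (f : Flo N X.C.lam) (p : Drp X.G d W d')
    (w : Wk X.G d W) (k : has X.G d' e) : (X.C.lam : ℤ) ≤ nX X.P.D X.C X.G d W N e ∧
      nX X.P.D X.C X.G d W N e + X.C.lam ≤ (arcOf X.P.D X.C X.G d' e).o3 := by
  have := h.lam_le'; have := h.B.2; have := h.BD_le
  unfold nX
  by_cases c : Fr W e
  · rw [if_pos c]
    obtain ⟨v, rfl | rfl | rfl | rfl | rfl⟩ := id_cases e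
    · exact absurd c fr0
    · rw [if_pos (by omega), arcOf1]; simp only [aE, capA]; omega
    · rw [if_pos (by omega), arcOf2]; simp only [snkA]; omega
    · rw [if_neg (by omega), arcOf3]; simp only [aG]; omega
    · rw [if_neg (by omega), arcOf4]; simp only [aU]; omega
  · obtain ⟨k1, k2⟩ := p.kept (D := X.P.D) (C := X.C) w h.wf i.cmb c
    have m := (i.arcs.mem e).2 (k1.1 k).1
    have a := f e m
    have b := i.adX_bd (W := W) h e
    rw [if_neg c]
    refine ⟨by omega, ?_⟩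
    by_cases z : adX X.G d W N e = 0
    · rw [z, add_zero, (k2 k).1, ← i.arcs.arc e m]; exact a.2
    · have := i.lt_B h m; have := h.nB_le
      rw [(adX_ne z).1]; omega

theorem Ok.lM_eq (h : X.Ok) : lM X.P X.Bd = X.Lg - Real.log X.P.D := by
  have a := h.D_pos; have b := h.n_le_M
  rw [h.Mu] at b
  exact Real.log_div (Nat.cast_ne_zero.2 (by omega)) (Nat.cast_ne_zero.2 (by omega))

/-- the barriers of the new arcs -/
theorem Ok.bar_fresh (h : X.Ok) (k : v < X.G.n) :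
    bar X.P X.Bd (capA 0 (v + 1) X.C.B) X.P.D + bar X.P X.Bd (snkA X.C v 2) X.P.D ≤
        1 + 4 * X.Lg + 2 * X.C.Z * lM X.P X.Bd ∧
      bar X.P X.Bd (aG X.C v) X.C.lam + bar X.P X.Bd (aU X.P.D X.C v) X.C.lam ≤
        1 + 4 * X.Lg + 2 * X.C.Z * lM X.P X.Bd := by
  have := h.ids; have := h.nb; have := h.pb; have := h.cb; have := h.Mu; have := h.BD_le
  have := h.Z_pos; have := h.lam_le'; have := h.B.2; have := h.lam_pos
  have z : X.C.Z * 2 ≤ X.C.Z * (X.G.n + 2) := Nat.mul_le_mul_left _ (by omega)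
  have a1 := bar_le_all (e := 0) (B := X.Bd) (A := capA 0 (v + 1) X.C.B) (x := X.P.D) h.D_pos
    h.s0_pos (by simp only [capA, Bn.arc]; omega)
    (h.big rfl (by omega) (by simp only [capA]; omega))
  have a2 := bar_le_fst (e := 0) (B := X.Bd) (A := snkA X.C v 2) (x := X.P.D) h.D_pos
    h.s0_pos (by simp only [snkA, Bn.arc]; omega)
    (h.big rfl (by omega) (by simp only [snkA]; omega))
  have a3 := bar_le_all (e := 0) (B := X.Bd) (A := aG X.C v) (x := X.C.lam) h.D_pos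
    h.s0_pos (by simp only [aG, Bn.arc]; omega) (h.big rfl le_rfl (by simp only [aG]; omega))
  have a4 := Big.bar_eq (e := 0) (B := X.Bd) (A := aU X.P.D X.C v) (x := X.C.lam) h.D_pos
    h.s0_pos (by simp only [aU, Bn.arc]; omega) (h.big rfl le_rfl (by simp only [aU]; omega))
  have d0 : (0 : ℝ) < X.P.D := by exact_mod_cast h.D_pos
  have l1 : (1 : ℝ) ≤ X.C.lam := by exact_mod_cast h.lam_pos
  have l2 : 20000 * (X.C.lam : ℝ) ≤ X.P.D := by exact_mod_cast h.lam_le'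
  have l3 : 20000 * ((X.C.Ph : ℝ) * X.C.Z * X.C.lam) ≤ X.P.D := by exact_mod_cast h.lam_le
  have b1 := Real.log_nonneg l1
  have b2 := Real.log_nonneg (show (1 : ℝ) ≤ 2 * X.P.D - X.C.lam by linarith)
  have b3 := mul_le_mul_of_nonneg_left (Real.log_le_log d0 (show _ ≤ (X.C.lam : ℝ) + X.P.D by
    linarith)) (Nat.cast_nonneg (α := ℝ) X.C.Z)
  have b4 : 5 * (X.C.Ph : ℝ) * X.C.Z * (X.C.lam / X.P.D) ≤ 1 := by
    rw [← mul_div_assoc, div_le_one d0]; linarith
  have := h.Lg_nonneg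
  simp only [capA, snkA, aG, aU, barL] at a1 a2 a3 a4 ⊢
  rw [h.lM_eq]
  simp only [Lg] at *
  push_cast at *
  simp only [add_zero, zero_mul] at *
  constructor <;> linarith

/-- the barrier of an arc that is kept -/
theorem Inv.bar_keep (i : X.Inv (s, d) N) (h : X.Ok) (f : Flo N X.C.lam) (p : Drp X.G d W d')
    (w : Wk X.G d W) (n : DrN X.P.D X.C X.G d d' W N N') (he : e ∈ N'.E.filter (¬Fr W ·)) :
    bar X.P X.Bd (N'.arc e) (N'.X e) ≤ bar X.P X.Bd (N.arc e) (N.X e) +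
      adX X.G d W N e * (((N'.arc e).p : ℝ) / X.P.D + 2 / X.C.M) := by
  obtain ⟨a, b, c⟩ := n.keep p w h.wf i.cmb i.arcs he
  have m := (mem_filter.1 he).1
  by_cases z : adX X.G d W N e = 0
  · rw [b, c, z]; simp
  have g := i.flo_nX h f p w ((n.mem e).1 m)
  have o := adX_ne (D := X.P.D) (C := X.C) (d' := d') z
  have o1 := arcOf_o1 (D := X.P.D) (C := X.C) (G := X.G) (d := d') e
  rw [← n.X e m, ← n.arc e m, b] at g
  rw [← n.arc e m, b] at o o1
  have q := Inv.pos h i.il.1 a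
  have := i.lt_B h a; have := h.nB_le; have u := i.adX_bd (W := W) h e
  have u1 : (0 : ℝ) ≤ adX X.G d W N e := by exact_mod_cast u.1
  have u2 : 2 * ((N.X e : ℝ) + adX X.G d W N e) ≤ X.C.M := by
    exact_mod_cast (by omega : 2 * (N.X e + adX X.G d W N e) ≤ X.C.M)
  have M0 : (0 : ℝ) < X.C.M := by have := h.n_le_M; exact_mod_cast (by omega : 0 < X.C.M)
  have t := bar_move h.D_pos h.s0_pos (h.ip.view i.il.1 e a).2.1 q.1 q.2 (h.big o1 g.1 g.2)
    (t := 0) (u := adX X.G d W N e * (2 / X.C.M)) le_rfl (by rw [c]; push_cast; linarith) (by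
      rw [c, o.1]; push_cast
      have : (1 : ℝ) ≤ 2 / X.C.M * (X.C.M - (N.X e + adX X.G d W N e)) := by
        rw [div_mul_eq_mul_div, le_div_iff₀ M0]; linarith
      nlinarith [mul_le_mul_of_nonneg_left this u1])
  rw [b]
  refine t.trans (le_of_eq ?_)
  rw [c, o.2]; push_cast; ring

/-- **the barrier after DROP** -/
theorem Inv.pot_drop (i : X.Inv (s, d) N) (h : X.Ok) (f : Flo N X.C.lam)
    (hY : ∀ c ∈ Y, isC X.G d c) (p : Drp X.G d (drW d Y) d')
    (n : DrN X.P.D X.C X.G d d' (drW d Y) N N') :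
    pot X.P X.Bd N' + ∑ c ∈ Y.toFinset, (X.C.Z * wtC d c : ℝ) * (X.Lg - Real.log (N.X (5 * c + 2)))
      ≤ pot X.P X.Bd N + #(drW d Y).toFinset * (1 + 4 * X.Lg + 2 * X.C.Z * lM X.P X.Bd) +
        (5 * X.C.Ph * X.C.Z * (exitF X.G d N Y.toFinset : ℝ) / X.P.D + 1 / 2) := by
  have hc : Cmb X.G d := i.cmb
  have w := wk_drW hc hY
  have M0 : (0 : ℝ) < X.C.M := by have := h.n_le_M; exact_mod_cast (by omega : 0 < X.C.M)
  have x0 : ∀ o < X.G.nd, d.pr.get o = true → (0 : ℝ) ≤ N.X (5 * o) * (2 / X.C.M) := fun o a b =>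
    mul_nonneg (by exact_mod_cast (i.lt_B h (i.arcs.plain a b).1).1.le) (by positivity)
  have a1 : ∑ e ∈ N'.E with Fr (drW d Y) e, bar X.P X.Bd (N'.arc e) (N'.X e) ≤
      #(drW d Y).toFinset * (1 + 4 * X.Lg + 2 * X.C.Z * lM X.P X.Bd) := by
    rw [n.sum_fresh p w, ← nsmul_eq_mul]
    refine sum_le_card_nsmul _ _ _ fun v hv => ?_
    have := h.bar_fresh (w.lt v (List.mem_toFinset.1 hv)).1
    split_ifs
    exacts [this.1, this.2]
  have a2 := sum_le_sum fun e he => i.bar_keep (e := e) h f p w n he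
  have a3 : ∑ e ∈ N'.E with ¬Fr (drW d Y) e, bar X.P X.Bd (N.arc e) (N.X e) +
      ∑ c ∈ Y.toFinset, bar X.P X.Bd (N.arc (5 * c + 2)) (N.X (5 * c + 2)) ≤ pot X.P X.Bd N := by
    rw [← sum_image (f := fun e => bar X.P X.Bd (N.arc e) (N.X e)) (g := (5 * · + 2))
      fun _ _ _ _ k => by simpa using k, ← sum_union]
    · refine sum_le_sum_of_subset_of_nonneg (union_subset
        (fun e he => (n.keep p w h.wf i.cmb i.arcs he).1) fun e he => ?_)
        fun e he _ => Inv.bar_nonneg h i.il.1 he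
      obtain ⟨c, b, rfl⟩ := mem_image.1 he
      exact (i.arcs.sink (hY c (List.mem_toFinset.1 b))).1
    · refine disjoint_left.2 fun e he k => (mem_filter.1 he).2 ?_
      obtain ⟨c, b, rfl⟩ := mem_image.1 k
      exact (fr_add (by omega) (by omega)).2 ((isC_drW i.cmb hY).2 (List.mem_toFinset.1 b)).1
  have a4 : ∑ c ∈ Y.toFinset, (X.C.Z * wtC d c : ℝ) * (X.Lg - Real.log (N.X (5 * c + 2))) ≤
      ∑ c ∈ Y.toFinset, bar X.P X.Bd (N.arc (5 * c + 2)) (N.X (5 * c + 2)) :=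
    sum_le_sum fun c hc => by
      obtain ⟨a, b⟩ := i.arcs.sink (hY c (List.mem_toFinset.1 hc))
      have q := Inv.pos h i.il.1 a
      have := (le_bar h.D_pos h.s0_pos (h.ip.view i.il.1 _ a).2.1 q.1 q.2).1
      refine le_trans (le_of_eq ?_) this
      rw [b]; simp [snkA, wtC, Lg]
  have t1 := sum_fib (N'.E.filter (¬Fr (drW d Y) ·)) (dJ1 X.G d (drW d Y))
    (fun o => 5 * X.G.hd o + 3) (fun o => N.X (5 * o))
    fun e => ((N'.arc e).p : ℝ) / X.P.D + 2 / X.C.M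
  have t2 := sum_fib (N'.E.filter (¬Fr (drW d Y) ·)) (dJ2 X.G d (drW d Y))
    (fun o => 5 * d.cls.get (X.G.tl.get o) + 2) (fun o => N.X (5 * o))
    fun e => ((N'.arc e).p : ℝ) / X.P.D + 2 / X.C.M
  have t3 := t1.trans_le (sum_le_sum (g := fun o => (if X.G.hd o ∉ drW d Y then (N.X (5 * o) : ℝ)
      else 0) * (5 * X.C.Ph * X.C.Z / X.P.D) + N.X (5 * o) * (2 / X.C.M)) fun o ho => by
    obtain ⟨b1, b2, -⟩ := mem_dJ1.1 ho
    obtain ⟨k1, k2⟩ := n.tg1 p h.wf i.cmb b1 b2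
    by_cases q : X.G.hd o ∉ drW d Y
    · rw [if_pos (k1.2 q), if_pos q, k2 q]; simp only [aG]; push_cast; linarith
    · rw [if_neg (mt k1.1 q), if_neg q, zero_mul, zero_add]; exact x0 o b1 b2)
  have t4 := t2.trans_le (sum_le_sum (g := fun o => (N.X (5 * o) : ℝ) * (2 / X.C.M)) fun o ho => by
    obtain ⟨b1, b2, -⟩ := mem_dJ2.1 ho
    obtain ⟨k1, k2⟩ := n.tg2 p w h.wf i.cmb b1 b2
    by_cases q : X.G.tl.get o ∉ drW d Y
    · obtain ⟨x, k⟩ := k2 q
      rw [if_pos (k1.2 q), k]; simp [snkA]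
    · rw [if_neg (mt k1.1 q)]; exact x0 o b1 b2)
  have t5 : ∑ o ∈ dJ1 X.G d (drW d Y), (if X.G.hd o ∉ drW d Y then (N.X (5 * o) : ℝ) else 0) =
      exitF X.G d N Y.toFinset := by
    rw [exitF, Int.cast_sum, ← sum_filter, dJ1, filter_filter]
    refine sum_congr (filter_congr fun o ho => ?_) fun _ _ => rfl
    have a := mem_range.1 ho
    rw [and_assoc]
    refine and_congr_right fun b => ?_
    obtain ⟨c1, c2, -⟩ := hc.pr o a b
    simp [mem_drW hc hY, h.wf.tl_lt o a, h.wf.hd_lt a, c1, c2]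
  have b1 := (i.sumJ h (J := dJ1 X.G d (drW d Y)) fun o ho =>
    have := mem_dJ1.1 ho; ⟨this.1, this.2.1⟩).2
  have b2 := (i.sumJ h (J := dJ2 X.G d (drW d Y)) fun o ho =>
    have := mem_dJ2.1 ho; ⟨this.1, this.2.1⟩).2
  have b3 : ((∑ o ∈ dJ1 X.G d (drW d Y), N.X (5 * o) : ℤ) +
      (∑ o ∈ dJ2 X.G d (drW d Y), N.X (5 * o) : ℤ) : ℝ) * (2 / X.C.M) ≤ 1 / 2 := by
    have := h.nB_le
    rw [← mul_div_assoc, div_le_div_iff₀ M0 two_pos]
    exact_mod_cast (by linarith [Int.natCast_nonneg X.C.B, Int.natCast_nonneg X.P.D] :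
      (∑ o ∈ dJ1 X.G d (drW d Y), N.X (5 * o) + ∑ o ∈ dJ2 X.G d (drW d Y), N.X (5 * o)) * 2 * 2 ≤
        1 * (X.C.M : ℤ))
  rw [sum_add_distrib, ← sum_mul, ← sum_mul, t5, ← Int.cast_sum] at t3
  rw [← sum_mul, ← Int.cast_sum] at t4
  simp only [adX, Int.cast_add, add_mul, sum_add_distrib] at a2
  rw [pot, ← sum_filter_add_sum_filter_not _ (Fr (drW d Y) ·), mul_div_right_comm]
  linarith

end Cx

end Crest.Agent.N325.P2
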